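import Vale.Agent.Lib.P361.Pressure

open scoped Matrix
open Filter Topology

set_option linter.unusedSectionVars false

namespace Vale.Agent.Lib.P361

/-- The Gaussian integral `J(t) = (1/π) ∫_0^π exp(-t u²/2) du`. -/
noncomputable def Jfun (t : ℝ) : ℝ :=
  (1 / Real.pi) * ∫ u in (0 : ℝ)..Real.pi, Real.exp (-(t / 2) * u ^ 2)

lemma gauss_intervalIntegrable (b : ℝ) (x y : ℝ) :
    IntervalIntegrable (fun u : ℝ => Real.exp (-b * u ^ 2)) MeasureTheory.volume x y :=
  (by fun_prop : Continuous fun u : ℝ => Real.exp (-b * u ^ 2)).intervalIntegrable _ _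

lemma Jfun_nonneg (t : ℝ) : 0 ≤ Jfun t := by
  unfold Jfun
  refine mul_nonneg (by positivity) ?_
  exact intervalIntegral.integral_nonneg Real.pi_pos.le fun u _ => (Real.exp_pos _).le

lemma ang_symm {L a b : ℕ} (hL : 0 < L) (hab : a + b = L) :
    Real.cos (ang L a) = Real.cos (ang L b) := by
  have hL' : (L : ℝ) ≠ 0 := by exact_mod_cast hL.ne'
  have h : ang L a = 2 * Real.pi - ang L b := by
    unfold ang
    have : (a : ℝ) = (L : ℝ) - b := by
      rw [← hab]; push_cast; ring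
    rw [this]
    field_simp
  rw [h, Real.cos_two_pi_sub]

/-- Folding the sum over `Fin L` into half of it. -/
lemma sum_fold (N : ℕ) (g : ℕ → ℝ) (hg : ∀ a b, a + b = 2 * N + 1 → g a = g b) :
    ∑ m ∈ Finset.range (2 * N + 1), g m = 2 * ∑ m ∈ Finset.range (N + 1), g m - g 0 := by
  have e : 2 * N + 1 = (N + 1) + N := by omega
  rw [e, Finset.sum_range_add]
  have h2 : ∑ x ∈ Finset.range N, g (N + 1 + x) = ∑ x ∈ Finset.range N, g (x + 1) := by
    rw [← Finset.sum_range_reflect (fun j => g (j + 1)) N]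
    refine Finset.sum_congr rfl fun x hx => ?_
    have hx' := Finset.mem_range.mp hx
    exact hg _ _ (by omega)
  rw [h2, Finset.sum_range_succ' (fun m => g m) N]
  ring

/-- The Riemann sum dominates the Gaussian integral, up to an error of one term. -/
theorem Tsum_ge (N : ℕ) (t : ℝ) (ht : 0 ≤ t) :
    Jfun t - 1 / (sideL N : ℝ) ≤ Tsum (sideL N) t := by
  set L := sideL N with hL
  have hLpos : (0 : ℝ) < (L : ℝ) := by rw [hL]; positivity
  set g : ℕ → ℝ := fun m => Real.exp (-t * (1 - Real.cos (ang L m))) with hg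
  have hTsum : Tsum L t = (1 / (L : ℝ)) * ∑ m ∈ Finset.range L, g m := by
    unfold Tsum
    rw [Fin.sum_univ_eq_sum_range g L]
  have hsym : ∀ a b, a + b = 2 * N + 1 → g a = g b := by
    intro a b hab
    simp only [hg]
    rw [ang_symm (Nat.succ_pos _) hab]
  have hfold := sum_fold N g hsym
  have hg0 : g 0 = 1 := by
    simp [hg, ang]
  set c : ℝ := 2 * Real.pi / (L : ℝ) with hc
  have hcpos : 0 < c := by rw [hc]; positivity
  set F : ℝ → ℝ := fun x => Real.exp (-(t / 2) * (c * x) ^ 2) with hF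
  have hFg : ∀ m : ℕ, F (0 + (m : ℝ)) ≤ g m := by
    intro m
    simp only [hF, hg, zero_add]
    apply Real.exp_le_exp.mpr
    have hcos := Real.one_sub_sq_div_two_le_cos (x := ang L m)
    have e : ang L m = c * (m : ℝ) := by
      simp only [ang, hc]; ring
    rw [e] at hcos ⊢
    nlinarith
  have hanti : AntitoneOn F (Set.Icc 0 (0 + ((N + 1 : ℕ) : ℝ))) := by
    intro x hx y _ hxy
    simp only [hF]
    apply Real.exp_le_exp.mpr
    have h0 : 0 ≤ x := hx.1
    have : (c * x) ^ 2 ≤ (c * y) ^ 2 := by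
      apply pow_le_pow_left₀ (by positivity)
      exact mul_le_mul_of_nonneg_left hxy hcpos.le
    nlinarith
  have hint := hanti.integral_le_sum
  have hsum : ∑ i ∈ Finset.range (N + 1), F (0 + (i : ℝ)) ≤ ∑ m ∈ Finset.range (N + 1), g m :=
    Finset.sum_le_sum fun m _ => hFg m
  -- the substitution
  have hsubst : ∫ x in (0 : ℝ)..(0 + ((N + 1 : ℕ) : ℝ)), F x
      = c⁻¹ * ∫ u in (0 : ℝ)..(c * ((N + 1 : ℕ) : ℝ)), Real.exp (-(t / 2) * u ^ 2) := by
    have := intervalIntegral.integral_comp_mul_left (a := 0) (b := (0 + ((N + 1 : ℕ) : ℝ)))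
      (fun u => Real.exp (-(t / 2) * u ^ 2)) hcpos.ne'
    simp only [hF]
    rw [this]
    simp
  have hpi : Real.pi ≤ c * ((N + 1 : ℕ) : ℝ) := by
    simp only [hc]
    rw [div_mul_eq_mul_div, le_div_iff₀ hLpos]
    have hLe : (L : ℝ) = 2 * (N : ℝ) + 1 := by simp [hL, sideL]
    rw [hLe]
    push_cast
    nlinarith [Real.pi_pos]
  have hmono : ∫ u in (0 : ℝ)..Real.pi, Real.exp (-(t / 2) * u ^ 2)
      ≤ ∫ u in (0 : ℝ)..(c * ((N + 1 : ℕ) : ℝ)), Real.exp (-(t / 2) * u ^ 2) := by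
    apply intervalIntegral.integral_mono_interval le_rfl Real.pi_pos.le hpi
    · exact Filter.Eventually.of_forall fun u => (Real.exp_pos _).le
    · exact gauss_intervalIntegrable _ _ _
  have hcinv : c⁻¹ = (L : ℝ) / (2 * Real.pi) := by
    simp only [hc]; rw [inv_div]
  have hmain : (L : ℝ) / (2 * Real.pi) * ∫ u in (0 : ℝ)..Real.pi, Real.exp (-(t / 2) * u ^ 2)
      ≤ ∑ m ∈ Finset.range (N + 1), g m := by
    calc _ ≤ c⁻¹ * ∫ u in (0 : ℝ)..(c * ((N + 1 : ℕ) : ℝ)), Real.exp (-(t / 2) * u ^ 2) := by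
          rw [hcinv]
          exact mul_le_mul_of_nonneg_left hmono (by positivity)
      _ = ∫ x in (0 : ℝ)..(0 + ((N + 1 : ℕ) : ℝ)), F x := hsubst.symm
      _ ≤ _ := le_trans hint hsum
  rw [hTsum, hL, sideL, hfold, hg0]
  unfold Jfun
  have hLe2 : ((2 * N + 1 : ℕ) : ℝ) = (L : ℝ) := by simp [hL, sideL]
  rw [hLe2]
  have hpipos := Real.pi_pos
  set I := ∫ u in (0 : ℝ)..Real.pi, Real.exp (-(t / 2) * u ^ 2) with hI
  have h4 : (1 / (L : ℝ)) * (2 * ((L : ℝ) / (2 * Real.pi) * I) - 1)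
      ≤ (1 / (L : ℝ)) * (2 * (∑ m ∈ Finset.range (N + 1), g m) - 1) := by
    apply mul_le_mul_of_nonneg_left _ (by positivity)
    linarith
  refine le_trans (le_of_eq ?_) h4
  field_simp

lemma Tsum_nonneg (L : ℕ) (t : ℝ) : 0 ≤ Tsum L t := by
  unfold Tsum
  refine mul_nonneg (by positivity) (Finset.sum_nonneg fun m _ => (Real.exp_pos _).le)

/-- The Gaussian tail. -/
lemma gauss_tendsto :
    Tendsto (fun w : ℝ => ∫ v in (0 : ℝ)..w, Real.exp (-(1 / 2) * v ^ 2)) atTop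
      (𝓝 (Real.sqrt (Real.pi / (1 / 2)) / 2)) := by
  have h := MeasureTheory.intervalIntegral_tendsto_integral_Ioi (μ := MeasureTheory.volume)
    (f := fun v : ℝ => Real.exp (-(1 / 2) * v ^ 2)) 0
    ((integrable_exp_neg_mul_sq (b := 1 / 2) (by norm_num)).integrableOn) tendsto_id
  rw [integral_gaussian_Ioi] at h
  simpa using h

/-- The large `t` behaviour of `J`. -/
theorem Jfun_asymp :
    Tendsto (fun t : ℝ => Real.sqrt t * Jfun t) atTop (𝓝 (1 / Real.sqrt (2 * Real.pi))) := by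
  have hlim : Tendsto (fun t : ℝ => (1 / Real.pi) *
      ∫ v in (0 : ℝ)..(Real.sqrt t * Real.pi), Real.exp (-(1 / 2) * v ^ 2)) atTop
      (𝓝 ((1 / Real.pi) * (Real.sqrt (Real.pi / (1 / 2)) / 2))) := by
    refine Tendsto.const_mul _ (gauss_tendsto.comp ?_)
    exact Real.tendsto_sqrt_atTop.atTop_mul_const Real.pi_pos
  have hval : (1 / Real.pi) * (Real.sqrt (Real.pi / (1 / 2)) / 2)
      = 1 / Real.sqrt (2 * Real.pi) := by
    have e : Real.pi / (1 / 2) = 2 * Real.pi := by field_simp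
    rw [e]
    have hp : 0 < 2 * Real.pi := by positivity
    have hs := Real.mul_self_sqrt hp.le
    have hsp : 0 < Real.sqrt (2 * Real.pi) := Real.sqrt_pos.mpr hp
    rw [div_mul_div_comm, one_mul, div_eq_div_iff (by positivity) hsp.ne']
    nlinarith
  rw [hval] at hlim
  refine hlim.congr' ?_
  filter_upwards [eventually_gt_atTop 0] with t ht
  unfold Jfun
  have hs : 0 < Real.sqrt t := Real.sqrt_pos.mpr ht
  have := intervalIntegral.integral_comp_mul_left (a := 0) (b := Real.pi)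
      (fun v => Real.exp (-(1 / 2) * v ^ 2)) hs.ne'
  simp only [mul_zero, smul_eq_mul] at this
  have h2 : ∀ u : ℝ, Real.exp (-(1 / 2) * (Real.sqrt t * u) ^ 2) = Real.exp (-(t / 2) * u ^ 2) := by
    intro u
    congr 1
    rw [mul_pow, Real.sq_sqrt ht.le]
    ring
  simp only [h2] at this
  rw [this]
  field_simp

/-- The cube of `J` along a ray. -/
theorem Jfun_cube_limit (a : ℝ) (ha : 0 < a) :
    Tendsto (fun β : ℝ => β ^ ((3 : ℝ) / 2) * (Jfun (a * β)) ^ 3) atTop
      (𝓝 ((1 / Real.sqrt (a * (2 * Real.pi))) ^ 3)) := by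
  have h1 : Tendsto (fun β : ℝ => a * β) atTop atTop := tendsto_id.const_mul_atTop ha
  have h2 := Jfun_asymp.comp h1
  have h3 : Tendsto (fun β : ℝ => (1 / Real.sqrt a) * (Real.sqrt (a * β) * Jfun (a * β))) atTop
      (𝓝 ((1 / Real.sqrt a) * (1 / Real.sqrt (2 * Real.pi)))) := h2.const_mul _
  have hval : (1 / Real.sqrt a) * (1 / Real.sqrt (2 * Real.pi))
      = 1 / Real.sqrt (a * (2 * Real.pi)) := by
    rw [Real.sqrt_mul ha.le]
    field_simp
  rw [hval] at h3
  have h4 := h3.pow 3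
  refine h4.congr' ?_
  filter_upwards [eventually_gt_atTop 0] with β hβ
  have hs : Real.sqrt (a * β) = Real.sqrt a * Real.sqrt β := Real.sqrt_mul ha.le β
  have hsa : 0 < Real.sqrt a := Real.sqrt_pos.mpr ha
  have hrpow : β ^ ((3 : ℝ) / 2) = (Real.sqrt β) ^ 3 := by
    rw [Real.sqrt_eq_rpow, ← Real.rpow_natCast, ← Real.rpow_mul hβ.le]
    norm_num
  rw [hrpow, hs]
  field_simp

/-- The partial sums of `ζ(3/2)`. -/
noncomputable def zetaPartial (R : ℕ) : ℝ :=
  ∑ r ∈ Finset.range R, 1 / ((r : ℝ) + 1) ^ ((3 : ℝ) / 2)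

lemma zeta_re_eq : Tendsto zetaPartial atTop (𝓝 (riemannZeta (3 / 2)).re) := by
  have hs : 1 < ((3 / 2 : ℂ)).re := by norm_num
  have hsum : Summable (fun n : ℕ => 1 / (((n : ℝ) + 1) ^ ((3 : ℝ) / 2))) := by
    have := (summable_nat_add_iff 1).mpr (Real.summable_one_div_nat_rpow.mpr
      (show (1 : ℝ) < 3 / 2 by norm_num))
    simpa using this
  have h1 := zeta_eq_tsum_one_div_nat_add_one_cpow hs
  have h2 : ∀ n : ℕ, (1 : ℂ) / ((n : ℂ) + 1) ^ (3 / 2 : ℂ)
      = ((1 / (((n : ℝ) + 1) ^ ((3 : ℝ) / 2)) : ℝ) : ℂ) := by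
    intro n
    have hn : (0 : ℝ) ≤ (n : ℝ) + 1 := by positivity
    push_cast
    rw [Complex.ofReal_cpow hn]
    push_cast
    rfl
  simp only [h2] at h1
  rw [← Complex.ofReal_tsum] at h1
  rw [h1, Complex.ofReal_re]
  exact hsum.hasSum.tendsto_sum_nat

end Vale.Agent.Lib.P361
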