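import Vale.Agent.Lib.P361.Ops

open scoped Matrix
open Matrix

namespace Vale.Agent.Lib.P361

open Gibbs

set_option linter.unusedSectionVars false

section form

variable {ι : Type} [Fintype ι] [DecidableEq ι]

lemma FormNonneg.add {A B : Matrix ι ι ℂ} (hA : FormNonneg A) (hB : FormNonneg B) :
    FormNonneg (A + B) := by
  intro f
  rw [Matrix.add_mulVec, dotProduct_add, Complex.add_re]
  exact add_nonneg (hA f) (hB f)

lemma FormNonneg.smul_real {A : Matrix ι ι ℂ} (hA : FormNonneg A) {c : ℝ} (hc : 0 ≤ c) :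
    FormNonneg ((c : ℂ) • A) := by
  intro f
  rw [Matrix.smul_mulVec, dotProduct_smul, smul_eq_mul, Complex.re_ofReal_mul]
  exact mul_nonneg hc (hA f)

lemma formNonneg_conjTranspose_mul_self (W : Matrix ι ι ℂ) : FormNonneg (Wᴴ * W) := by
  intro f
  rw [← Matrix.mulVec_mulVec, Matrix.dotProduct_mulVec, Matrix.vecMul_conjTranspose, star_star]
  simp only [dotProduct, Pi.star_apply, Complex.re_sum]
  refine Finset.sum_nonneg fun i _ => ?_
  rw [Complex.star_def, mul_comm, Complex.mul_conj]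
  simp [Complex.normSq_nonneg]

lemma formNonneg_diagonal {v : ι → ℝ} (hv : ∀ i, 0 ≤ v i) :
    FormNonneg (diagonal (fun i => (v i : ℂ))) := by
  intro f
  simp only [dotProduct, Pi.star_apply, Matrix.mulVec_diagonal, Complex.re_sum]
  refine Finset.sum_nonneg fun i _ => ?_
  have : star (f i) * ((v i : ℂ) * f i) = ((v i * Complex.normSq (f i) : ℝ) : ℂ) := by
    rw [Complex.star_def]
    have h := Complex.mul_conj (f i)
    push_cast
    rw [← h]
    ring
  rw [this, Complex.ofReal_re]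
  exact mul_nonneg (hv i) (Complex.normSq_nonneg _)

/-- Ground state substitution. -/
theorem form_nonneg_of_ground_state (O : Matrix ι ι ℂ) (ψ : ι → ℝ) (hψ : ∀ i, 0 < ψ i)
    (him : ∀ i j, (O i j).im = 0) (hsym : ∀ i j, O i j = O j i)
    (hoff : ∀ i j, i ≠ j → (O i j).re ≤ 0)
    (hnull : ∀ i, (O *ᵥ (fun j => (ψ j : ℂ))) i = 0) : FormNonneg O := by
  intro f
  -- real entries
  set R : ι → ι → ℝ := fun i j => (O i j).re with hR
  have hOR : ∀ i j, O i j = (R i j : ℂ) := by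
    intro i j
    apply Complex.ext
    · simp [hR]
    · simp [him i j]
  have hsymR : ∀ i j, R i j = R j i := fun i j => by simp only [hR]; rw [hsym i j]
  have hnullR : ∀ i, ∑ j, R i j * ψ j = 0 := by
    intro i
    have h := hnull i
    simp only [Matrix.mulVec, dotProduct, hOR] at h
    have h2 : ∑ j, (R i j : ℂ) * (ψ j : ℂ) = ((∑ j, R i j * ψ j : ℝ) : ℂ) := by
      push_cast; rfl
    rw [h2] at h
    exact_mod_cast h
  set g : ι → ℂ := fun i => f i / (ψ i : ℂ) with hg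
  have hfg : ∀ i, f i = (ψ i : ℂ) * g i := by
    intro i
    have : (ψ i : ℂ) ≠ 0 := by exact_mod_cast (hψ i).ne'
    simp only [hg]
    field_simp
  set n : ι → ℝ := fun i => Complex.normSq (g i) with hn
  have hform : (star f ⬝ᵥ (O *ᵥ f)).re
      = ∑ i, ∑ j, R i j * (ψ i * ψ j) * ((n i + n j - Complex.normSq (g i - g j)) / 2) := by
    simp only [dotProduct, Matrix.mulVec, Pi.star_apply, Finset.mul_sum, Complex.re_sum, hOR]
    refine Finset.sum_congr rfl fun i _ => Finset.sum_congr rfl fun j _ => ?_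
    rw [hfg i, hfg j, Complex.normSq_sub]
    simp only [hn, Complex.star_def, map_mul, Complex.conj_ofReal, Complex.mul_re, Complex.ofReal_re,
      Complex.ofReal_im, Complex.mul_im, Complex.conj_re, Complex.conj_im, Complex.normSq_apply]
    ring
  rw [hform]
  have hsplit : ∀ i j, R i j * (ψ i * ψ j) * ((n i + n j - Complex.normSq (g i - g j)) / 2)
      = (1 / 2) * (ψ i * n i) * (R i j * ψ j) + (1 / 2) * (ψ j * n j) * (R j i * ψ i)
        + (1 / 2) * (- R i j) * (ψ i * ψ j) * Complex.normSq (g i - g j) := by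
    intro i j
    rw [hsymR j i]
    ring
  simp only [hsplit, Finset.sum_add_distrib]
  have h1 : ∑ i, ∑ j, (1 / 2) * (ψ i * n i) * (R i j * ψ j) = 0 := by
    refine Finset.sum_eq_zero fun i _ => ?_
    rw [← Finset.mul_sum, hnullR, mul_zero]
  have h2 : ∑ i, ∑ j, (1 / 2) * (ψ j * n j) * (R j i * ψ i) = 0 := by
    rw [Finset.sum_comm]
    refine Finset.sum_eq_zero fun i _ => ?_
    rw [← Finset.mul_sum, hnullR, mul_zero]
  rw [h1, h2]
  simp only [add_zero, zero_add]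
  refine Finset.sum_nonneg fun i _ => Finset.sum_nonneg fun j _ => ?_
  by_cases hij : i = j
  · subst hij
    simp
  · have h3 : 0 ≤ - R i j := by
      have := hoff i j hij
      simp only [hR]; linarith
    have h4 : 0 ≤ ψ i * ψ j := (mul_pos (hψ i) (hψ j)).le
    have h5 := Complex.normSq_nonneg (g i - g j)
    positivity

/-- Entries real and nonnegative. -/
def RealNN (M : Matrix ι ι ℂ) : Prop := ∀ i j, (M i j).im = 0 ∧ 0 ≤ (M i j).re

lemma RealNN.mul {M N : Matrix ι ι ℂ} (hM : RealNN M) (hN : RealNN N) : RealNN (M * N) := by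
  intro i j
  rw [Matrix.mul_apply, Complex.im_sum, Complex.re_sum]
  constructor
  · refine Finset.sum_eq_zero fun k _ => ?_
    rw [Complex.mul_im, (hM i k).1, (hN k j).1]; simp
  · refine Finset.sum_nonneg fun k _ => ?_
    rw [Complex.mul_re, (hM i k).1]
    simp only [zero_mul, sub_zero]
    exact mul_nonneg (hM i k).2 (hN k j).2

lemma RealNN.add {M N : Matrix ι ι ℂ} (hM : RealNN M) (hN : RealNN N) : RealNN (M + N) := by
  intro i j
  rw [Matrix.add_apply, Complex.add_im, Complex.add_re, (hM i j).1, (hN i j).1]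
  exact ⟨by simp, add_nonneg (hM i j).2 (hN i j).2⟩

end form

variable {V : Type} [Fintype V] [DecidableEq V] {d : ℕ}

lemma realNN_spinPlus : RealNN (spinPlus d) := by
  intro i j
  rw [spinPlus_apply]
  split_ifs
  · simp [cf_nonneg]
  · simp

lemma realNN_spinMinus : RealNN (spinMinus d) := by
  intro i j
  rw [spinMinus_apply]
  split_ifs
  · simp [cf_nonneg]
  · simp

lemma realNN_siteOp (x : V) {T : Matrix (Fin (d + 1)) (Fin (d + 1)) ℂ} (hT : RealNN T) :
    RealNN (siteOp x T) := by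
  intro σ τ
  simp only [siteOp, Matrix.of_apply]
  split_ifs
  · exact hT _ _
  · simp

lemma realNN_hop (x y : V) : RealNN (opP d x * opQ d y + opQ d x * opP d y) :=
  RealNN.add
    (RealNN.mul (realNN_siteOp x realNN_spinPlus) (realNN_siteOp y realNN_spinMinus))
    (RealNN.mul (realNN_siteOp x realNN_spinMinus) (realNN_siteOp y realNN_spinPlus))

/-- The square roots of binomial coefficients: the coherent state. -/
noncomputable def phiN (d j : ℕ) : ℝ := Real.sqrt (Nat.choose d j)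

lemma phiN_nonneg (d j : ℕ) : 0 ≤ phiN d j := Real.sqrt_nonneg _

lemma phiN_pos {j : ℕ} (hj : j ≤ d) : 0 < phiN d j := by
  unfold phiN
  apply Real.sqrt_pos.mpr
  exact_mod_cast Nat.choose_pos hj

lemma phiN_sq (d j : ℕ) : phiN d j ^ 2 = (Nat.choose d j : ℝ) := by
  unfold phiN
  exact Real.sq_sqrt (Nat.cast_nonneg _)

lemma cf_mul_phi_plus {i : ℕ} (hi : i + 1 ≤ d) :
    cf d (i + 1) * phiN d (i + 1) = ((d : ℝ) - i) * phiN d i := by
  have hdi : (i : ℝ) + 1 ≤ d := by exact_mod_cast hi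
  have hdi' : (0 : ℝ) ≤ (d : ℝ) - i := by linarith
  refine (sq_eq_sq₀ (mul_nonneg (cf_nonneg _) (phiN_nonneg _ _))
    (mul_nonneg hdi' (phiN_nonneg _ _))).mp ?_
  rw [mul_pow, mul_pow, phiN_sq, phiN_sq, sq (cf d (i + 1)), cf_sq (by omega)]
  have hc : ((Nat.choose d (i + 1) : ℝ)) * ((i : ℝ) + 1)
      = (Nat.choose d i : ℝ) * ((d : ℝ) - i) := by
    have := Nat.choose_succ_right_eq d i
    have h2 : ((Nat.choose d (i + 1) * (i + 1) : ℕ) : ℝ) = ((Nat.choose d i * (d - i) : ℕ) : ℝ) := by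
      rw [this]
    push_cast [Nat.cast_sub (show i ≤ d by omega)] at h2
    exact h2
  push_cast
  have : ((i : ℝ) + 1) * ((d : ℝ) + 1 - ((i : ℝ) + 1)) * (Nat.choose d (i + 1) : ℝ)
      = ((Nat.choose d (i + 1) : ℝ) * ((i : ℝ) + 1)) * ((d : ℝ) - i) := by ring
  rw [this, hc]
  ring

lemma cf_mul_phi_minus {i : ℕ} (hi : i + 1 ≤ d) :
    cf d (i + 1) * phiN d i = ((i : ℝ) + 1) * phiN d (i + 1) := by
  have hdi : (i : ℝ) + 1 ≤ d := by exact_mod_cast hi
  refine (sq_eq_sq₀ (mul_nonneg (cf_nonneg _) (phiN_nonneg _ _))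
    (mul_nonneg (by positivity) (phiN_nonneg _ _))).mp ?_
  rw [mul_pow, mul_pow, phiN_sq, phiN_sq, sq (cf d (i + 1)), cf_sq (by omega)]
  have hc : ((Nat.choose d (i + 1) : ℝ)) * ((i : ℝ) + 1)
      = (Nat.choose d i : ℝ) * ((d : ℝ) - i) := by
    have := Nat.choose_succ_right_eq d i
    have h2 : ((Nat.choose d (i + 1) * (i + 1) : ℕ) : ℝ) = ((Nat.choose d i * (d - i) : ℕ) : ℝ) := by
      rw [this]
    push_cast [Nat.cast_sub (show i ≤ d by omega)] at h2
    exact h2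
  push_cast
  have : ((i : ℝ) + 1) * ((d : ℝ) + 1 - ((i : ℝ) + 1)) * (Nat.choose d i : ℝ)
      = ((i : ℝ) + 1) * ((Nat.choose d i : ℝ) * ((d : ℝ) - i)) := by ring
  rw [this, ← hc]
  ring

lemma plus_phi (i : Fin (d + 1)) :
    ∑ j : Fin (d + 1), spinPlus d i j * ((phiN d j : ℝ) : ℂ)
      = (((d : ℝ) - (i : ℕ) : ℝ) : ℂ) * ((phiN d i : ℝ) : ℂ) := by
  simp only [spinPlus_apply]
  by_cases hi : (i : ℕ) + 1 ≤ d
  · rw [Finset.sum_eq_single (⟨(i : ℕ) + 1, by omega⟩ : Fin (d + 1))]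
    · simp only [if_true]
      rw [← Complex.ofReal_mul, cf_mul_phi_plus hi, Complex.ofReal_mul]
    · intro j _ hj
      rw [if_neg, zero_mul]
      intro h
      apply hj
      ext
      simpa using h
    · simp
  · have had : (i : ℕ) = d := by omega
    have h0 : (d : ℝ) - ((i : ℕ) : ℝ) = 0 := by rw [had]; simp
    rw [h0]
    simp only [Complex.ofReal_zero, zero_mul]
    refine Finset.sum_eq_zero fun j _ => ?_
    rw [if_neg, zero_mul]
    intro h
    have := j.2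
    omega

lemma minus_phi (i : Fin (d + 1)) :
    ∑ j : Fin (d + 1), spinMinus d i j * ((phiN d j : ℝ) : ℂ)
      = ((((i : ℕ) : ℝ) : ℝ) : ℂ) * ((phiN d i : ℝ) : ℂ) := by
  simp only [spinMinus_apply]
  by_cases hi : 1 ≤ (i : ℕ)
  · obtain ⟨i', hi'⟩ : ∃ i' : ℕ, (i : ℕ) = i' + 1 := ⟨(i : ℕ) - 1, by omega⟩
    have hi'd : i' + 1 ≤ d := by have := i.2; omega
    rw [Finset.sum_eq_single (⟨i', by omega⟩ : Fin (d + 1))]
    · simp only [hi', if_true]
      rw [← Complex.ofReal_mul, cf_mul_phi_minus hi'd, Complex.ofReal_mul]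
      push_cast
      rfl
    · intro j _ hj
      rw [if_neg, zero_mul]
      intro h
      apply hj
      ext
      simp only
      omega
    · simp
  · have had : (i : ℕ) = 0 := by omega
    rw [had]
    simp only [Nat.cast_zero, Complex.ofReal_zero, zero_mul]
    refine Finset.sum_eq_zero fun j _ => ?_
    rw [if_neg, zero_mul]
    omega

lemma z_phi (i : Fin (d + 1)) :
    ∑ j : Fin (d + 1), spinZ d i j * ((phiN d j : ℝ) : ℂ)
      = (((d : ℝ) / 2 - (i : ℕ) : ℝ) : ℂ) * ((phiN d i : ℝ) : ℂ) := by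
  simp only [spinZ_apply]
  rw [Finset.sum_eq_single i]
  · simp
  · intro j _ hj
    rw [if_neg (Ne.symm hj), zero_mul]
  · simp

/-- The coherent product vector. -/
noncomputable def psi (d : ℕ) (σ : V → Fin (d + 1)) : ℝ := ∏ z, phiN d (σ z)

lemma psi_pos (σ : V → Fin (d + 1)) : 0 < psi d σ :=
  Finset.prod_pos fun z _ => phiN_pos (by have := (σ z).2; omega)

lemma psi_update (σ : V → Fin (d + 1)) (x : V) (j : Fin (d + 1)) :
    psi d (Function.update σ x j) = phiN d j * ∏ z ∈ Finset.univ.erase x, phiN d (σ z) := by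
  unfold psi
  rw [← Finset.mul_prod_erase Finset.univ _ (Finset.mem_univ x)]
  simp only [Function.update_self]
  congr 1
  refine Finset.prod_congr rfl fun z hz => ?_
  rw [Function.update_of_ne (Finset.ne_of_mem_erase hz)]

lemma psi_eq (σ : V → Fin (d + 1)) (x : V) :
    psi d σ = phiN d (σ x) * ∏ z ∈ Finset.univ.erase x, phiN d (σ z) := by
  conv_lhs => rw [← Function.update_eq_self x σ]
  rw [psi_update]

lemma siteOp_mulVec_psi (x : V) (T : Matrix (Fin (d + 1)) (Fin (d + 1)) ℂ) (D : Fin (d + 1) → ℂ)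
    (hT : ∀ i, ∑ j, T i j * ((phiN d j : ℝ) : ℂ) = D i * ((phiN d i : ℝ) : ℂ))
    (g : (V → Fin (d + 1)) → ℂ) (hg : ∀ σ j, g (Function.update σ x j) = g σ)
    (σ : V → Fin (d + 1)) :
    (siteOp x T *ᵥ (fun τ => g τ * ((psi d τ : ℝ) : ℂ))) σ
      = g σ * D (σ x) * ((psi d σ : ℝ) : ℂ) := by
  rw [siteOp_mulVec]
  simp only [hg, psi_update]
  have : ∀ j, T (σ x) j * (g σ * (((phiN d j * ∏ z ∈ Finset.univ.erase x, phiN d (σ z) : ℝ)) : ℂ))
      = (g σ * ((∏ z ∈ Finset.univ.erase x, phiN d (σ z) : ℝ) : ℂ))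
        * (T (σ x) j * ((phiN d j : ℝ) : ℂ)) := by
    intro j
    push_cast
    ring
  simp only [this]
  rw [← Finset.mul_sum, hT, psi_eq σ x]
  push_cast
  ring

/-- `S⁺_x S⁻_y ψ` etc. in closed form. -/
lemma hop_psi {x y : V} (hxy : x ≠ y) (σ : V → Fin (d + 1)) :
    ((opP d x * opQ d y + opQ d x * opP d y) *ᵥ (fun τ => ((psi d τ : ℝ) : ℂ))) σ
      = ((((d : ℝ) - (σ x : ℕ)) * ((σ y : ℕ) : ℝ) + ((σ x : ℕ) : ℝ) * ((d : ℝ) - (σ y : ℕ)) : ℝ) : ℂ)
        * ((psi d σ : ℝ) : ℂ) := by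
  have hQy : (opQ d y *ᵥ (fun τ => ((psi d τ : ℝ) : ℂ)))
      = fun τ => ((((τ y : ℕ) : ℝ) : ℝ) : ℂ) * ((psi d τ : ℝ) : ℂ) := by
    funext τ
    have := siteOp_mulVec_psi y (spinMinus d) (fun i => ((((i : ℕ) : ℝ) : ℝ) : ℂ)) minus_phi
      (fun _ => 1) (fun _ _ => rfl) τ
    unfold opQ
    simpa using this
  have hPy : (opP d y *ᵥ (fun τ => ((psi d τ : ℝ) : ℂ)))
      = fun τ => ((((d : ℝ) - (τ y : ℕ) : ℝ)) : ℂ) * ((psi d τ : ℝ) : ℂ) := by
    funext τ
    have := siteOp_mulVec_psi y (spinPlus d) (fun i => (((d : ℝ) - (i : ℕ) : ℝ) : ℂ)) plus_phi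
      (fun _ => 1) (fun _ _ => rfl) τ
    unfold opP
    simpa using this
  rw [Matrix.add_mulVec, ← Matrix.mulVec_mulVec, ← Matrix.mulVec_mulVec, hQy, hPy, Pi.add_apply]
  have h1 := siteOp_mulVec_psi x (spinPlus d) (fun i => (((d : ℝ) - (i : ℕ) : ℝ) : ℂ)) plus_phi
    (fun τ => ((((τ y : ℕ) : ℝ) : ℝ) : ℂ))
    (fun τ j => by rw [Function.update_of_ne hxy.symm]) σ
  have h2 := siteOp_mulVec_psi x (spinMinus d) (fun i => ((((i : ℕ) : ℝ) : ℝ) : ℂ)) minus_phi
    (fun τ => (((d : ℝ) - (τ y : ℕ) : ℝ) : ℂ))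
    (fun τ j => by rw [Function.update_of_ne hxy.symm]) σ
  unfold opP opQ
  rw [h1, h2]
  push_cast
  ring

lemma opZ_eq_diagonal (x : V) :
    opZ d x = diagonal (fun σ : V → Fin (d + 1) => (((d : ℝ) / 2 - (σ x : ℕ) : ℝ) : ℂ)) := by
  unfold opZ spinZ
  rw [siteOp_diagonal]
  congr 1
  funext σ
  push_cast
  rfl

lemma opZ_mul_opZ (x y : V) :
    opZ d x * opZ d y = diagonal (fun σ : V → Fin (d + 1) =>
      ((((d : ℝ) / 2 - (σ x : ℕ)) * ((d : ℝ) / 2 - (σ y : ℕ)) : ℝ) : ℂ)) := by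
  rw [opZ_eq_diagonal, opZ_eq_diagonal, Matrix.diagonal_mul_diagonal]
  congr 1
  funext σ
  push_cast
  rfl

/-- The operator `S² - S_x · S_y`, written out. -/
noncomputable def bondGap (d : ℕ) (x y : V) : Matrix (V → Fin (d + 1)) (V → Fin (d + 1)) ℂ :=
  (((d : ℝ) ^ 2 / 4 : ℝ) : ℂ) • 1 - (1 / 2 : ℂ) • opB2 d x y

lemma bondGap_eq (x y : V) :
    bondGap d x y = (((d : ℝ) ^ 2 / 4 : ℝ) : ℂ) • 1 - opZ d x * opZ d y
      - (1 / 2 : ℂ) • (opP d x * opQ d y + opQ d x * opP d y) := by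
  unfold bondGap opB2
  module

lemma opB2_transpose {x y : V} (hxy : x ≠ y) : (opB2 d x y)ᵀ = opB2 d x y := by
  unfold opB2
  simp only [Matrix.transpose_add, Matrix.transpose_mul, opZ_transpose, opP_transpose,
    opQ_transpose]
  rw [(commute_ZZ hxy.symm).eq, (commute_PQ hxy.symm).eq, (commute_QP hxy.symm).eq]
  abel

lemma opB2_conjTranspose {x y : V} (hxy : x ≠ y) : (opB2 d x y)ᴴ = opB2 d x y := by
  unfold opB2
  simp only [Matrix.conjTranspose_add, Matrix.conjTranspose_mul, opZ_conjTranspose,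
    opP_conjTranspose, opQ_conjTranspose]
  rw [(commute_ZZ hxy.symm).eq, (commute_PQ hxy.symm).eq, (commute_QP hxy.symm).eq]
  abel

lemma half_mul_re (z : ℂ) : ((1 / 2 : ℂ) * z).re = (1 / 2) * z.re := by
  have : (1 / 2 : ℂ) = ((1 / 2 : ℝ) : ℂ) := by push_cast; rfl
  rw [this, Complex.re_ofReal_mul]

lemma half_mul_im (z : ℂ) : ((1 / 2 : ℂ) * z).im = (1 / 2) * z.im := by
  have : (1 / 2 : ℂ) = ((1 / 2 : ℝ) : ℂ) := by push_cast; rfl
  rw [this, Complex.im_ofReal_mul]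

lemma bondGap_transpose {x y : V} (hxy : x ≠ y) : (bondGap d x y)ᵀ = bondGap d x y := by
  unfold bondGap
  rw [Matrix.transpose_sub, Matrix.transpose_smul, Matrix.transpose_smul, opB2_transpose hxy,
    Matrix.transpose_one]

theorem bondGap_form {x y : V} (hxy : x ≠ y) : FormNonneg (bondGap d x y) := by
  have hhop := realNN_hop (d := d) x y
  apply form_nonneg_of_ground_state (bondGap d x y) (psi d) psi_pos
  · intro σ τ
    rw [bondGap_eq, opZ_mul_opZ]
    rw [Matrix.sub_apply, Matrix.sub_apply, Matrix.smul_apply, Matrix.smul_apply,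
      Matrix.one_apply, Matrix.diagonal_apply, smul_eq_mul, smul_eq_mul, Complex.sub_im,
      Complex.sub_im, half_mul_im, (hhop σ τ).1]
    by_cases h : σ = τ
    · rw [if_pos h, if_pos h, mul_one, Complex.ofReal_im, Complex.ofReal_im]; simp
    · rw [if_neg h, if_neg h]; simp
  · intro σ τ
    have h := congrFun (congrFun (bondGap_transpose (d := d) hxy) τ) σ
    rw [Matrix.transpose_apply] at h
    exact h
  · intro σ τ hστ
    rw [bondGap_eq, opZ_mul_opZ]
    rw [Matrix.sub_apply, Matrix.sub_apply, Matrix.smul_apply, Matrix.smul_apply,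
      Matrix.one_apply, Matrix.diagonal_apply, smul_eq_mul, smul_eq_mul, Complex.sub_re,
      Complex.sub_re, half_mul_re, if_neg hστ, if_neg hστ]
    have h1 := (hhop σ τ).2
    simp only [mul_zero, Complex.zero_re, sub_zero, zero_sub]
    linarith
  · intro σ
    rw [bondGap_eq, Matrix.sub_mulVec, Matrix.sub_mulVec, Matrix.smul_mulVec, Matrix.smul_mulVec,
      Matrix.one_mulVec, opZ_mul_opZ]
    simp only [Pi.sub_apply, Pi.smul_apply, Matrix.mulVec_diagonal, smul_eq_mul]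
    rw [hop_psi hxy]
    push_cast
    ring

lemma opQ_mul_opP_eq_diagonal (x : V) :
    opQ d x * opP d x = diagonal (fun σ : V → Fin (d + 1) =>
      ((((σ x : ℕ) : ℝ) * ((d : ℝ) + 1 - (σ x : ℕ)) : ℝ) : ℂ)) := by
  unfold opQ opP
  rw [siteOp_mul_same]
  have : spinMinus d * spinPlus d = diagonal (fun j : Fin (d + 1) =>
      (((j : ℕ) : ℂ) * ((d : ℂ) + 1 - ((j : ℕ) : ℂ)))) := by
    ext a b
    rw [minus_mul_plus, Matrix.diagonal_apply]
  rw [this, siteOp_diagonal]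
  congr 1
  funext σ
  push_cast
  rfl

lemma fin_le (j : Fin (d + 1)) : ((j : ℕ) : ℝ) ≤ d := by
  have := j.2
  exact_mod_cast (by omega : (j : ℕ) ≤ d)

lemma fin_nonneg (j : Fin (d + 1)) : (0 : ℝ) ≤ ((j : ℕ) : ℝ) := Nat.cast_nonneg _

/-- `S³_x S³_y ≤ S²`. -/
lemma zz_form (x y : V) :
    FormNonneg ((((d : ℝ) ^ 2 / 4 : ℝ) : ℂ) • 1 - opZ d x * opZ d y) := by
  have : (((d : ℝ) ^ 2 / 4 : ℝ) : ℂ) • (1 : Matrix (V → Fin (d + 1)) (V → Fin (d + 1)) ℂ)
      - opZ d x * opZ d y = diagonal (fun σ : V → Fin (d + 1) =>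
        (((d : ℝ) ^ 2 / 4 - ((d : ℝ) / 2 - (σ x : ℕ)) * ((d : ℝ) / 2 - (σ y : ℕ)) : ℝ) : ℂ)) := by
    rw [opZ_mul_opZ]
    ext σ τ
    by_cases h : σ = τ
    · subst h; simp
    · simp [h]
  rw [this]
  apply formNonneg_diagonal
  intro σ
  have h1 := fin_le (σ x)
  have h2 := fin_le (σ y)
  have h3 := fin_nonneg (σ x)
  have h4 := fin_nonneg (σ y)
  have hd : (0 : ℝ) ≤ d := Nat.cast_nonneg _
  set a := ((σ x : ℕ) : ℝ)
  set b := ((σ y : ℕ) : ℝ)
  nlinarith [mul_nonneg h3 h4, mul_nonneg (sub_nonneg.mpr h1) (sub_nonneg.mpr h2),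
    mul_nonneg h3 (sub_nonneg.mpr h2), mul_nonneg h4 (sub_nonneg.mpr h1)]

/-- `S³_x ≤ S`. -/
lemma z_upper_form (x : V) :
    FormNonneg ((((d : ℝ) / 2 : ℝ) : ℂ) • 1 - opZ d x) := by
  have : (((d : ℝ) / 2 : ℝ) : ℂ) • (1 : Matrix (V → Fin (d + 1)) (V → Fin (d + 1)) ℂ)
      - opZ d x = diagonal (fun σ : V → Fin (d + 1) => ((((σ x : ℕ) : ℝ) : ℝ) : ℂ)) := by
    rw [opZ_eq_diagonal]
    ext σ τ
    by_cases h : σ = τ
    · subst h; simp
    · simp [h]
  rw [this]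
  exact formNonneg_diagonal fun σ => fin_nonneg _

/-- `-S ≤ S³_x`. -/
lemma z_lower_form (x : V) :
    FormNonneg ((((d : ℝ) / 2 : ℝ) : ℂ) • 1 + opZ d x) := by
  have : (((d : ℝ) / 2 : ℝ) : ℂ) • (1 : Matrix (V → Fin (d + 1)) (V → Fin (d + 1)) ℂ)
      + opZ d x = diagonal (fun σ : V → Fin (d + 1) => (((d : ℝ) - (σ x : ℕ) : ℝ) : ℂ)) := by
    rw [opZ_eq_diagonal]
    ext σ τ
    by_cases h : σ = τ
    · subst h
      simp
      ring
    · simp [h]
  rw [this]
  exact formNonneg_diagonal fun σ => sub_nonneg.mpr (fin_le _)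

/-- `S⁻_x S⁺_x ≤ d (S - S³_x)`. -/
lemma hop_site_form (x : V) :
    FormNonneg (((d : ℝ) : ℂ) • ((((d : ℝ) / 2 : ℝ) : ℂ) • 1 - opZ d x) - opQ d x * opP d x) := by
  have : ((d : ℝ) : ℂ) • ((((d : ℝ) / 2 : ℝ) : ℂ) • (1 : Matrix (V → Fin (d + 1)) (V → Fin (d + 1)) ℂ)
      - opZ d x) - opQ d x * opP d x = diagonal (fun σ : V → Fin (d + 1) =>
        ((((σ x : ℕ) : ℝ) * (((σ x : ℕ) : ℝ) - 1) : ℝ) : ℂ)) := by
    rw [opZ_eq_diagonal, opQ_mul_opP_eq_diagonal]
    ext σ τ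
    by_cases h : σ = τ
    · subst h
      simp
      ring
    · simp [h]
  rw [this]
  apply formNonneg_diagonal
  intro σ
  rcases Nat.eq_zero_or_pos (σ x : ℕ) with h0 | h0
  · rw [h0]; simp
  · have : (1 : ℝ) ≤ ((σ x : ℕ) : ℝ) := by exact_mod_cast h0
    exact mul_nonneg (by linarith) (by linarith)

/-- A crude lower bound for the bond operator. -/
lemma bond_lower_form {x y : V} (hxy : x ≠ y) :
    FormNonneg (opB2 d x y + ((5 * (d : ℝ) ^ 2 : ℝ) : ℂ) • 1) := by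
  have key : opB2 d x y + ((5 * (d : ℝ) ^ 2 : ℝ) : ℂ) • 1
      = (opP d x + opP d y)ᴴ * (opP d x + opP d y)
        + diagonal (fun σ : V → Fin (d + 1) =>
          ((2 * (((d : ℝ) / 2 - (σ x : ℕ)) * ((d : ℝ) / 2 - (σ y : ℕ)))
            - ((σ x : ℕ) : ℝ) * ((d : ℝ) + 1 - (σ x : ℕ))
            - ((σ y : ℕ) : ℝ) * ((d : ℝ) + 1 - (σ y : ℕ)) + 5 * (d : ℝ) ^ 2 : ℝ) : ℂ)) := by
    have e : diagonal (fun σ : V → Fin (d + 1) =>
          ((2 * (((d : ℝ) / 2 - (σ x : ℕ)) * ((d : ℝ) / 2 - (σ y : ℕ)))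
            - ((σ x : ℕ) : ℝ) * ((d : ℝ) + 1 - (σ x : ℕ))
            - ((σ y : ℕ) : ℝ) * ((d : ℝ) + 1 - (σ y : ℕ)) + 5 * (d : ℝ) ^ 2 : ℝ) : ℂ))
        = (opZ d x * opZ d y + opZ d x * opZ d y) - opQ d x * opP d x - opQ d y * opP d y
          + ((5 * (d : ℝ) ^ 2 : ℝ) : ℂ) • 1 := by
      rw [opZ_mul_opZ, opQ_mul_opP_eq_diagonal, opQ_mul_opP_eq_diagonal]
      ext σ τ
      by_cases h : σ = τ
      · subst h
        simp
        ring
      · simp [h]
    rw [e, Matrix.conjTranspose_add, opP_conjTranspose, opP_conjTranspose]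
    unfold opB2
    have hc := (commute_QP (d := d) hxy.symm).eq
    simp only [add_mul, mul_add]
    rw [hc]
    abel
  rw [key]
  refine FormNonneg.add (formNonneg_conjTranspose_mul_self _) (formNonneg_diagonal ?_)
  intro σ
  have h1 := fin_le (σ x)
  have h2 := fin_le (σ y)
  have h3 := fin_nonneg (σ x)
  have h4 := fin_nonneg (σ y)
  have hd : (0 : ℝ) ≤ d := Nat.cast_nonneg _
  set a := ((σ x : ℕ) : ℝ)
  set b := ((σ y : ℕ) : ℝ)
  rcases Nat.eq_zero_or_pos d with hd0 | hd1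
  · have ha : a = 0 := by
      have : a ≤ 0 := by rw [hd0] at h1; simpa using h1
      linarith
    have hb : b = 0 := by
      have : b ≤ 0 := by rw [hd0] at h2; simpa using h2
      linarith
    rw [ha, hb, hd0]; simp
  · have hd1' : (1 : ℝ) ≤ d := by exact_mod_cast hd1
    nlinarith [mul_nonneg h3 h4, mul_nonneg (sub_nonneg.mpr h1) (sub_nonneg.mpr h2),
      mul_nonneg h3 (sub_nonneg.mpr h2), mul_nonneg h4 (sub_nonneg.mpr h1),
      mul_nonneg h3 (sub_nonneg.mpr h1), mul_nonneg h4 (sub_nonneg.mpr h2),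
      mul_nonneg hd hd, mul_nonneg hd h3, mul_nonneg hd h4]

end Vale.Agent.Lib.P361
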