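import Mathlib

open scoped Matrix

namespace Vale.Agent.Lib.P361

/-- The box `{-N,...,N}^3` of the cubic lattice. -/
abbrev Site (N : ℕ) : Type := Fin 3 → Finset.Icc (-(N : ℤ)) (N : ℤ)

/-- The `ℓ¹` distance on the box. -/
def dist1 {N : ℕ} (x y : Site N) : ℤ := ∑ j, |((x j : ℤ) - (y j : ℤ))|

/-- The raising matrix of spin `S = d/2` in the basis `|j⟩`, `j = 0,...,d`, where `|j⟩` has
`S³ = d/2 - j`: the entry `⟨j-1|S⁺|j⟩` is `√(j (d + 1 - j))`. -/
noncomputable def spinPlus (d : ℕ) : Matrix (Fin (d + 1)) (Fin (d + 1)) ℂ :=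
  Matrix.of fun i j =>
    if (j : ℕ) = (i : ℕ) + 1 then ((Real.sqrt ((j : ℝ) * ((d : ℝ) + 1 - (j : ℝ))) : ℝ) : ℂ) else 0

/-- The lowering matrix of spin `S = d/2`. -/
noncomputable def spinMinus (d : ℕ) : Matrix (Fin (d + 1)) (Fin (d + 1)) ℂ := (spinPlus d)ᴴ

/-- The matrix `S³ = diag(d/2 - j)` of spin `S = d/2`. -/
noncomputable def spinZ (d : ℕ) : Matrix (Fin (d + 1)) (Fin (d + 1)) ℂ :=
  Matrix.diagonal fun j => ((d : ℂ) / 2 - ((j : ℕ) : ℂ))

/-- The spin matrices `S¹ = (S⁺ + S⁻)/2`, `S² = (S⁺ - S⁻)/(2i)`, `S³` of spin `S = d/2`. -/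
noncomputable def spinOp (d : ℕ) : Fin 3 → Matrix (Fin (d + 1)) (Fin (d + 1)) ℂ :=
  ![(1 / 2 : ℂ) • (spinPlus d + spinMinus d),
    (1 / (2 * Complex.I)) • (spinPlus d - spinMinus d),
    spinZ d]

/-- The matrix `T` acting at the site `x` of `⨂_{y ∈ V} ℂ^{d+1}`, in the product basis
indexed by `V → Fin (d + 1)`, and as the identity on all other tensor factors. -/
def siteOp {V : Type} [Fintype V] [DecidableEq V] {d : ℕ} (x : V)
    (T : Matrix (Fin (d + 1)) (Fin (d + 1)) ℂ) :
    Matrix (V → Fin (d + 1)) (V → Fin (d + 1)) ℂ :=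
  Matrix.of fun σ τ => if ∀ y, y ≠ x → σ y = τ y then T (σ x) (τ x) else 0

/-- The Hamiltonian `H_N = - ∑_{edges {x,y}} S_x · S_y` of the box with free boundary conditions:
half the sum over ordered pairs of nearest neighbours. -/
noncomputable def hamiltonian (d N : ℕ) :
    Matrix (Site N → Fin (d + 1)) (Site N → Fin (d + 1)) ℂ :=
  -((1 / 2 : ℂ) • ∑ x : Site N, ∑ y : Site N,
      if dist1 x y = 1 then ∑ a : Fin 3, siteOp x (spinOp d a) * siteOp y (spinOp d a) else 0)

/-- The total magnetization `M_N = ∑_x S³_x`. -/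
noncomputable def magnetization (d N : ℕ) :
    Matrix (Site N → Fin (d + 1)) (Site N → Fin (d + 1)) ℂ :=
  ∑ x : Site N, siteOp x (spinOp d 2)

/-- The finite-volume pressure
`(1 / (β |Λ_N|)) log Tr exp(-β (H_N - h M_N))`. -/
noncomputable def finitePressure (d : ℕ) (β h : ℝ) (N : ℕ) : ℝ :=
  Real.log (Matrix.trace (NormedSpace.exp
      (-(β : ℂ) • (hamiltonian d N - (h : ℂ) • magnetization d N)))).re
    / (β * (Fintype.card (Site N) : ℝ))

/-- The pressure `p_β(h)`: the large-volume limit of the finite-volume pressures (taken as an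
upper limit, which coincides with the limit, since the limit exists). -/
noncomputable def pressure (d : ℕ) (β h : ℝ) : ℝ :=
  Filter.limsup (fun N => finitePressure d β h N) Filter.atTop

/-- The spontaneous magnetization `m_S(β)`, the right derivative at `h = 0` of the pressure. -/
noncomputable def spontaneousMagnetization (d : ℕ) (β : ℝ) : ℝ :=
  derivWithin (pressure d β) (Set.Ioi 0) 0

end Vale.Agent.Lib.P361
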