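import Vale.Agent.Lib.P361.Analysis

open scoped Matrix
open Filter Topology

set_option linter.unusedSectionVars false

namespace Vale.Agent.Lib.P361

lemma tendsto_one_div_sideL :
    Tendsto (fun N : ℕ => 1 / ((sideL N : ℕ) : ℝ)) atTop (𝓝 0) := by
  have h1 : Tendsto (fun N : ℕ => sideL N) atTop atTop :=
    tendsto_atTop_mono (fun N => by simp only [id, sideL]; omega) tendsto_id
  exact (tendsto_one_div_atTop_nhds_zero_nat (𝕜 := ℝ)).comp h1

/-- The inequality at fixed positive field, in the limit of large volume. -/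
lemma limit_step (d : ℕ) (hd : 0 < d) (β h μ₁ m' : ℝ) (hβ : 0 < β) (hh : 0 < h) (hμ₁ : 0 < μ₁)
    (hm₁ : μ₁ ≤ m') (hm : m' < spontaneousMagnetization d β) (R : ℕ) :
    (2 * μ₁ / (d : ℝ)) * ∑ r ∈ Finset.range R, Real.exp (-(((r : ℝ) + 1) * (β * h)))
        * (Jfun (((r : ℝ) + 1) * (β * (d : ℝ) ^ 2 / (2 * μ₁)))) ^ 3
      ≤ (d : ℝ) / 2 - m' := by
  have hdpos : (0 : ℝ) < d := by exact_mod_cast hd
  set F : ℝ → ℝ := fun x => (2 * μ₁ / (d : ℝ)) * ∑ r ∈ Finset.range R,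
      Real.exp (-(((r : ℝ) + 1) * (β * h)))
        * (max (Jfun (((r : ℝ) + 1) * (β * (d : ℝ) ^ 2 / (2 * μ₁)))- x) 0) ^ 3 with hF
  have hFc : Continuous F := by
    simp only [hF]
    fun_prop
  have hlim : Tendsto (fun N : ℕ => F (1 / ((sideL N : ℕ) : ℝ))) atTop (𝓝 (F 0)) :=
    (hFc.tendsto 0).comp tendsto_one_div_sideL
  have hF0 : F 0 = (2 * μ₁ / (d : ℝ)) * ∑ r ∈ Finset.range R, Real.exp (-(((r : ℝ) + 1) * (β * h)))
        * (Jfun (((r : ℝ) + 1) * (β * (d : ℝ) ^ 2 / (2 * μ₁)))) ^ 3 := by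
    simp only [hF, sub_zero]
    congr 1
    refine Finset.sum_congr rfl fun r _ => ?_
    rw [max_eq_left (Jfun_nonneg _)]
  rw [← hF0]
  refine le_of_tendsto_of_frequently hlim ?_
  refine (frequently_magDensity d β h m' hβ hh hm).mono ?_
  intro N hN
  have hfv := fv_bound d hd β h hβ hh N μ₁ hμ₁ (le_trans hm₁ hN.le) R
  have hle : F (1 / ((sideL N : ℕ) : ℝ)) ≤ (2 * μ₁ / (d : ℝ)) * ∑ r ∈ Finset.range R,
      Real.exp (-(((r : ℝ) + 1) * (β * h)))
        * (Tsum (sideL N) (((r : ℝ) + 1) * (β * (d : ℝ) ^ 2 / (2 * μ₁)))) ^ 3 := by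
    simp only [hF]
    apply mul_le_mul_of_nonneg_left _ (by positivity)
    refine Finset.sum_le_sum fun r _ => ?_
    apply mul_le_mul_of_nonneg_left _ (Real.exp_pos _).le
    apply pow_le_pow_left₀ (le_max_right _ _)
    apply max_le
    · exact Tsum_ge N _ (by positivity)
    · exact Tsum_nonneg _ _
  linarith

/-- The inequality in the limit of vanishing field. -/
lemma limit_step2 (d : ℕ) (hd : 0 < d) (β μ₁ m' : ℝ) (hβ : 0 < β) (hμ₁ : 0 < μ₁)
    (hm₁ : μ₁ ≤ m') (hm : m' < spontaneousMagnetization d β) (R : ℕ) :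
    (2 * μ₁ / (d : ℝ)) * ∑ r ∈ Finset.range R,
        (Jfun (((r : ℝ) + 1) * (β * (d : ℝ) ^ 2 / (2 * μ₁)))) ^ 3
      ≤ (d : ℝ) / 2 - m' := by
  set F : ℝ → ℝ := fun h => (2 * μ₁ / (d : ℝ)) * ∑ r ∈ Finset.range R,
      Real.exp (-(((r : ℝ) + 1) * (β * h)))
        * (Jfun (((r : ℝ) + 1) * (β * (d : ℝ) ^ 2 / (2 * μ₁)))) ^ 3 with hF
  have hFc : Continuous F := by
    simp only [hF]
    fun_prop
  have hF0 : F 0 = (2 * μ₁ / (d : ℝ)) * ∑ r ∈ Finset.range R,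
        (Jfun (((r : ℝ) + 1) * (β * (d : ℝ) ^ 2 / (2 * μ₁)))) ^ 3 := by
    simp [hF]
  rw [← hF0]
  have hlim : Tendsto F (𝓝[>] 0) (𝓝 (F 0)) :=
    tendsto_nhdsWithin_of_tendsto_nhds (hFc.tendsto 0)
  refine le_of_tendsto hlim ?_
  filter_upwards [self_mem_nhdsWithin] with h hh
  exact limit_step d hd β h μ₁ m' hβ hh hμ₁ hm₁ hm R

/-- **The non-asymptotic form.** For `0 < μ₁ < m_S(β)`, the spin wave lower bound on the deficit
`S - m_S(β)` holds with `μ₁` in place of `m_S(β)`. -/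
theorem core_bound (d : ℕ) (hd : 0 < d) (β μ₁ : ℝ) (hβ : 0 < β) (hμ₁ : 0 < μ₁)
    (hm : μ₁ < spontaneousMagnetization d β) (R : ℕ) :
    (2 * μ₁ / (d : ℝ)) * ∑ r ∈ Finset.range R,
        (Jfun (((r : ℝ) + 1) * (β * (d : ℝ) ^ 2 / (2 * μ₁)))) ^ 3
      ≤ (d : ℝ) / 2 - spontaneousMagnetization d β := by
  set A := (2 * μ₁ / (d : ℝ)) * ∑ r ∈ Finset.range R,
        (Jfun (((r : ℝ) + 1) * (β * (d : ℝ) ^ 2 / (2 * μ₁)))) ^ 3 with hA
  set m := spontaneousMagnetization d β with hmdef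
  by_contra hcon
  push Not at hcon
  -- pick `m'` between
  set m' := max μ₁ ((m + ((d : ℝ) / 2 - A)) / 2) with hm'
  have h1 : m' < m := by
    apply max_lt hm
    linarith
  have h2 : μ₁ ≤ m' := le_max_left _ _
  have h3 := limit_step2 d hd β μ₁ m' hβ hμ₁ h2 h1 R
  have h4 : (m + ((d : ℝ) / 2 - A)) / 2 ≤ m' := le_max_right _ _
  linarith

/-- The constant `(2 π d)^{-3/2}` written with a square root. -/
noncomputable def c0 (d : ℝ) : ℝ := (1 / Real.sqrt (2 * Real.pi * d)) ^ 3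

lemma rpow_three_halves {x : ℝ} (hx : 0 ≤ x) : x ^ ((3 : ℝ) / 2) = (Real.sqrt x) ^ 3 := by
  rw [Real.sqrt_eq_rpow, ← Real.rpow_natCast, ← Real.rpow_mul hx]
  norm_num

lemma c0_eq (d : ℝ) (hd : 0 < d) :
    c0 d = 1 / (8 * Real.pi ^ ((3 : ℝ) / 2) * (d / 2) ^ ((3 : ℝ) / 2)) := by
  unfold c0
  have h4 : ((4 : ℝ)) ^ ((3 : ℝ) / 2) = 8 := by
    rw [rpow_three_halves (by norm_num)]
    have : Real.sqrt 4 = 2 := by
      rw [show (4 : ℝ) = 2 ^ 2 by norm_num]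
      exact Real.sqrt_sq (by norm_num)
    rw [this]; norm_num
  have e : 8 * Real.pi ^ ((3 : ℝ) / 2) * (d / 2) ^ ((3 : ℝ) / 2)
      = (2 * Real.pi * d) ^ ((3 : ℝ) / 2) := by
    rw [← h4, ← Real.mul_rpow (by norm_num) Real.pi_pos.le,
      ← Real.mul_rpow (by positivity) (by positivity)]
    congr 1
    ring
  rw [e, rpow_three_halves (by positivity), div_pow, one_pow]

/-- The `R`-term, `η`-dependent value of the limit. -/
noncomputable def limVal (d η : ℝ) (R : ℕ) : ℝ :=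
  (1 - η) * (1 / Real.sqrt (2 * Real.pi * (d / (1 - η)))) ^ 3 * zetaPartial R

lemma term_limit (d η : ℝ) (hd : 0 < d) (hη : η < 1) (r : ℕ) :
    Tendsto (fun β : ℝ => β ^ ((3 : ℝ) / 2) *
        (Jfun (((r : ℝ) + 1) * (β * d ^ 2 / (2 * ((1 - η) * (d / 2))))) ^ 3)) atTop
      (𝓝 ((1 / Real.sqrt (2 * Real.pi * (d / (1 - η)))) ^ 3
        * (1 / ((r : ℝ) + 1) ^ ((3 : ℝ) / 2)))) := by
  have hη' : 0 < 1 - η := by linarith
  set a : ℝ := ((r : ℝ) + 1) * (d / (1 - η)) with ha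
  have hapos : 0 < a := by rw [ha]; positivity
  have h := Jfun_cube_limit a hapos
  have hval : (1 / Real.sqrt (a * (2 * Real.pi))) ^ 3
      = (1 / Real.sqrt (2 * Real.pi * (d / (1 - η)))) ^ 3
        * (1 / ((r : ℝ) + 1) ^ ((3 : ℝ) / 2)) := by
    rw [rpow_three_halves (by positivity)]
    have e : a * (2 * Real.pi) = (2 * Real.pi * (d / (1 - η))) * ((r : ℝ) + 1) := by
      rw [ha]; ring
    have hs1 : 0 < Real.sqrt (2 * Real.pi * (d / (1 - η))) := Real.sqrt_pos.mpr (by positivity)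
    have hs2 : 0 < Real.sqrt ((r : ℝ) + 1) := Real.sqrt_pos.mpr (by positivity)
    rw [e, Real.sqrt_mul (by positivity)]
    field_simp
  rw [hval] at h
  refine h.congr' ?_
  filter_upwards with β
  congr 3
  rw [ha]
  field_simp

lemma main_limit (d η : ℝ) (hd : 0 < d) (hη : η < 1) (R : ℕ) :
    Tendsto (fun β : ℝ => β ^ ((3 : ℝ) / 2) * ((2 * ((1 - η) * (d / 2)) / d) *
        ∑ r ∈ Finset.range R,
          (Jfun (((r : ℝ) + 1) * (β * d ^ 2 / (2 * ((1 - η) * (d / 2)))))) ^ 3)) atTop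
      (𝓝 (limVal d η R)) := by
  have h1 : Tendsto (fun β : ℝ => ∑ r ∈ Finset.range R, β ^ ((3 : ℝ) / 2) *
        (Jfun (((r : ℝ) + 1) * (β * d ^ 2 / (2 * ((1 - η) * (d / 2)))))) ^ 3) atTop
      (𝓝 (∑ r ∈ Finset.range R, (1 / Real.sqrt (2 * Real.pi * (d / (1 - η)))) ^ 3
        * (1 / ((r : ℝ) + 1) ^ ((3 : ℝ) / 2)))) :=
    tendsto_finsetSum _ fun r _ => term_limit d η hd hη r
  have h2 := h1.const_mul (1 - η)
  have hval : (1 - η) * ∑ r ∈ Finset.range R, (1 / Real.sqrt (2 * Real.pi * (d / (1 - η)))) ^ 3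
        * (1 / ((r : ℝ) + 1) ^ ((3 : ℝ) / 2)) = limVal d η R := by
    unfold limVal zetaPartial
    rw [← Finset.mul_sum]
    ring
  rw [hval] at h2
  refine h2.congr' ?_
  filter_upwards with β
  have e : 2 * ((1 - η) * (d / 2)) / d = 1 - η := by
    field_simp
  rw [e, ← Finset.mul_sum]
  ring

/-- The limit value tends to the constant of the law. -/
lemma limVal_close (d : ℝ) (hd : 0 < d) (ε : ℝ) (hε : 0 < ε) :
    ∃ η : ℝ, 0 < η ∧ η < 1 ∧ ∃ R : ℕ,
      c0 d * (riemannZeta (3 / 2)).re - ε < limVal d η R := by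
  -- first `R`
  have h1 : Tendsto (fun R => c0 d * zetaPartial R) atTop
      (𝓝 (c0 d * (riemannZeta (3 / 2)).re)) := zeta_re_eq.const_mul _
  obtain ⟨R, hR⟩ := (h1.eventually (lt_mem_nhds (show
    c0 d * (riemannZeta (3 / 2)).re - ε / 2 < c0 d * (riemannZeta (3 / 2)).re by linarith))).exists
  -- then `η`
  have hcont : ContinuousAt (fun η : ℝ => limVal d η R) 0 := by
    unfold limVal
    refine ContinuousAt.mul (ContinuousAt.mul (by fun_prop) (ContinuousAt.pow ?_ 3)) continuousAt_const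
    refine ContinuousAt.div continuousAt_const ?_ ?_
    · refine Real.continuous_sqrt.continuousAt.comp ?_
      refine ContinuousAt.mul continuousAt_const (ContinuousAt.div continuousAt_const (by fun_prop) ?_)
      norm_num
    · have : (0 : ℝ) < 2 * Real.pi * (d / (1 - 0)) := by positivity
      exact (Real.sqrt_pos.mpr this).ne'
  have h0 : limVal d 0 R = c0 d * zetaPartial R := by
    unfold limVal c0
    simp
  have hev : ∀ᶠ η in 𝓝 (0 : ℝ), c0 d * (riemannZeta (3 / 2)).re - ε < limVal d η R := by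
    apply hcont.eventually_const_lt
    change c0 d * (riemannZeta (3 / 2)).re - ε < limVal d 0 R
    rw [h0]
    linarith
  have hev2 : ∀ᶠ η in 𝓝[>] (0 : ℝ), c0 d * (riemannZeta (3 / 2)).re - ε < limVal d η R ∧ η < 1 := by
    refine (hev.filter_mono nhdsWithin_le_nhds).and ?_
    exact (Iio_mem_nhds (show (0 : ℝ) < 1 by norm_num)) |> fun h => mem_nhdsWithin_of_mem_nhds h
  have hev3 : ∀ᶠ η in 𝓝[>] (0 : ℝ), 0 < η := self_mem_nhdsWithin
  obtain ⟨η, ⟨h5, h6⟩, h7⟩ := (hev2.and hev3).exists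
  exact ⟨η, h7, h6, R, h5⟩

/-- **Lower half of Bloch's law**, with the sharp constant. -/
theorem bloch_lower (d : ℕ) (hd : 0 < d) (ε : ℝ) (hε : 0 < ε) :
    ∃ β₀ : ℝ, ∀ β : ℝ, β₀ ≤ β →
      (riemannZeta (3 / 2)).re / (8 * Real.pi ^ ((3 : ℝ) / 2) * ((d : ℝ) / 2) ^ ((3 : ℝ) / 2)) - ε
        ≤ β ^ ((3 : ℝ) / 2) * ((d : ℝ) / 2 - spontaneousMagnetization d β) := by
  have hdpos : (0 : ℝ) < d := by exact_mod_cast hd
  set C := (riemannZeta (3 / 2)).re / (8 * Real.pi ^ ((3 : ℝ) / 2) * ((d : ℝ) / 2) ^ ((3 : ℝ) / 2))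
    with hC
  have hCc : C = c0 d * (riemannZeta (3 / 2)).re := by
    rw [hC, c0_eq _ hdpos]; ring
  obtain ⟨η, hη0, hη1, R, hclose⟩ := limVal_close d hdpos (ε / 2) (by linarith)
  rw [← hCc] at hclose
  have hlim := main_limit d η hdpos hη1 R
  have hev1 := hlim.eventually (lt_mem_nhds (show C - ε < limVal d η R by linarith))
  have hinf : Tendsto (fun β : ℝ => β ^ ((3 : ℝ) / 2)) atTop atTop :=
    tendsto_rpow_atTop (by norm_num)
  have hev2 : ∀ᶠ β : ℝ in atTop, C ≤ β ^ ((3 : ℝ) / 2) * (η * ((d : ℝ) / 2)) :=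
    (hinf.atTop_mul_const (by positivity)).eventually_ge_atTop C
  obtain ⟨β₀, hβ₀⟩ := eventually_atTop.mp (hev1.and (hev2.and (eventually_gt_atTop 0)))
  refine ⟨β₀, fun β hβ => ?_⟩
  obtain ⟨h1, h2, h3⟩ := hβ₀ β hβ
  have hrpow : 0 < β ^ ((3 : ℝ) / 2) := Real.rpow_pos_of_pos h3 _
  set μ₁ := (1 - η) * ((d : ℝ) / 2) with hμ₁
  have hμ₁pos : 0 < μ₁ := by
    rw [hμ₁]
    have : 0 < 1 - η := by linarith
    positivity
  by_cases hm : μ₁ < spontaneousMagnetization d β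
  · have hcore := core_bound d hd β μ₁ h3 hμ₁pos hm R
    have h4 := mul_le_mul_of_nonneg_left hcore hrpow.le
    linarith
  · have hm' : spontaneousMagnetization d β ≤ μ₁ := not_lt.mp hm
    have h4 : η * ((d : ℝ) / 2) ≤ (d : ℝ) / 2 - spontaneousMagnetization d β := by
      rw [hμ₁] at hm'
      nlinarith
    have h5 := mul_le_mul_of_nonneg_left h4 hrpow.le
    linarith

end Vale.Agent.Lib.P361
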