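import Vale.Agent.Lib.P361.Bond

open scoped Matrix
open Matrix

set_option linter.unusedSectionVars false

namespace Vale.Agent.Lib.P361

open Gibbs

section trace

variable {ι : Type} [Fintype ι] [DecidableEq ι]

/-- The complex Gibbs functional. -/
noncomputable def tr (X O : Matrix ι ι ℂ) : ℂ := trace (NormedSpace.exp X * O)

lemma tr_add (X A B : Matrix ι ι ℂ) : tr X (A + B) = tr X A + tr X B := by
  simp [tr, mul_add, Matrix.trace_add]

lemma tr_sub (X A B : Matrix ι ι ℂ) : tr X (A - B) = tr X A - tr X B := by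
  simp [tr, mul_sub, Matrix.trace_sub]

lemma tr_neg (X A : Matrix ι ι ℂ) : tr X (-A) = - tr X A := by
  simp [tr, Matrix.trace_neg]

lemma tr_smul (X A : Matrix ι ι ℂ) (c : ℂ) : tr X (c • A) = c * tr X A := by
  simp [tr, Matrix.trace_smul]

lemma gs_eq_re_tr (X O : Matrix ι ι ℂ) : gs X O = (tr X O).re := rfl

lemma tr_transpose {X : Matrix ι ι ℂ} (hXs : Xᵀ = X) (O : Matrix ι ι ℂ) : tr X O = tr X Oᵀ := by
  unfold tr
  rw [← Matrix.trace_transpose, Matrix.transpose_mul, ← Matrix.exp_transpose, hXs,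
    Matrix.trace_mul_comm]

lemma tr_conjTranspose {X : Matrix ι ι ℂ} (hX : X.IsHermitian) (O : Matrix ι ι ℂ) :
    starRingEnd ℂ (tr X O) = tr X Oᴴ := by
  unfold tr
  have : starRingEnd ℂ (trace (NormedSpace.exp X * O)) = trace (NormedSpace.exp X * O)ᴴ := by
    rw [Matrix.trace_conjTranspose]; rfl
  rw [this, Matrix.conjTranspose_mul, (Matrix.IsHermitian.exp hX).eq, Matrix.trace_mul_comm]

end trace

variable {V : Type} [Fintype V] [DecidableEq V] {d : ℕ}

/-- The transverse two-point function is real and symmetric. -/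
lemma tr_hop {X : Matrix (V → Fin (d + 1)) (V → Fin (d + 1)) ℂ}
    (hX : X.IsHermitian) (hXs : Xᵀ = X) {x y : V} (hxy : x ≠ y) :
    tr X (opQ d x * opP d y) = tr X (opP d x * opQ d y)
      ∧ (tr X (opP d x * opQ d y)).im = 0 := by
  have e1 : (opP d x * opQ d y)ᵀ = opQ d x * opP d y := by
    rw [Matrix.transpose_mul, opQ_transpose, opP_transpose, (commute_PQ hxy.symm).eq]
  have e2 : (opP d x * opQ d y)ᴴ = opQ d x * opP d y := by
    rw [Matrix.conjTranspose_mul, opQ_conjTranspose, opP_conjTranspose, (commute_PQ hxy.symm).eq]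
  have h1 := tr_transpose hXs (opP d x * opQ d y)
  rw [e1] at h1
  have h2 := tr_conjTranspose hX (opP d x * opQ d y)
  rw [e2, ← h1] at h2
  exact ⟨h1.symm, Complex.conj_eq_iff_im.mp h2⟩

lemma tr_zz_im {X : Matrix (V → Fin (d + 1)) (V → Fin (d + 1)) ℂ}
    (hX : X.IsHermitian) {x y : V} (hxy : x ≠ y) :
    (tr X (opZ d x * opZ d y)).im = 0 := by
  have e2 : (opZ d x * opZ d y)ᴴ = opZ d x * opZ d y := by
    rw [Matrix.conjTranspose_mul, opZ_conjTranspose, opZ_conjTranspose, (commute_ZZ hxy.symm).eq]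
  have h2 := tr_conjTranspose hX (opZ d x * opZ d y)
  rw [e2] at h2
  exact Complex.conj_eq_iff_im.mp h2

/-- The Gibbs value of the double commutator with one bond. -/
theorem gs_dcomm_B2 {X : Matrix (V → Fin (d + 1)) (V → Fin (d + 1)) ℂ}
    (hX : X.IsHermitian) (hXs : Xᵀ = X) (a : V → ℂ) {x y : V} (hxy : x ≠ y) :
    gs X (dcomm (modeA d a) (opB2 d x y))
      = -2 * Complex.normSq (a x - a y)
          * (gs X (opZ d x * opZ d y) + (1 / 2) * gs X (opB2 d x y)) := by
  obtain ⟨ht, htim⟩ := tr_hop hX hXs (d := d) hxy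
  have hzim := tr_zz_im hX (d := d) hxy
  set t := tr X (opP d x * opQ d y) with ht_def
  set e := tr X (opZ d x * opZ d y) with he_def
  have hB : gs X (opB2 d x y) = 2 * e.re + 2 * t.re := by
    rw [gs_eq_re_tr]
    unfold opB2
    rw [tr_add, tr_add, tr_add, ht, ← ht_def, ← he_def]
    simp only [Complex.add_re]
    ring
  have hZ : gs X (opZ d x * opZ d y) = e.re := rfl
  rw [hB, hZ, dcomm_B2 a hxy, gs_eq_re_tr, tr_smul, tr_add, tr_smul, tr_smul, tr_sub, tr_neg,
    tr_add, tr_add, tr_add, ht, ← ht_def, ← he_def]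
  have he_real : e = (e.re : ℂ) := by
    apply Complex.ext <;> simp [hzim]
  have ht_real : t = (t.re : ℂ) := by
    apply Complex.ext <;> simp [htim]
  have key : (2 : ℂ) * (starRingEnd ℂ (a x) - starRingEnd ℂ (a y)) *
      (a x * (-t - (e + e)) + a y * (e + e + t))
      = ((-2 * Complex.normSq (a x - a y) * (2 * e.re + t.re) : ℝ) : ℂ) := by
    have hns : ((Complex.normSq (a x - a y) : ℝ) : ℂ)
        = (a x - a y) * (starRingEnd ℂ (a x) - starRingEnd ℂ (a y)) := by
      rw [← map_sub, Complex.mul_conj]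
    push_cast
    rw [hns, ← he_real, ← ht_real]
    ring
  rw [key, Complex.ofReal_re]
  ring

/-- The sum of all bonds (twice, over ordered pairs). -/
noncomputable def hopSum (d : ℕ) (adj : V → V → Prop) [DecidableRel adj] :
    Matrix (V → Fin (d + 1)) (V → Fin (d + 1)) ℂ :=
  ∑ x, ∑ y, if adj x y then opB2 d x y else 0

/-- The total magnetization. -/
noncomputable def magOp (V : Type) [Fintype V] [DecidableEq V] (d : ℕ) :
    Matrix (V → Fin (d + 1)) (V → Fin (d + 1)) ℂ := ∑ w, opZ d w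

/-- The exponent of the Gibbs factor. -/
noncomputable def gibbsX (d : ℕ) (adj : V → V → Prop) [DecidableRel adj] (β h : ℝ) :
    Matrix (V → Fin (d + 1)) (V → Fin (d + 1)) ℂ :=
  (-(β : ℂ)) • (-((1 / 4 : ℂ) • hopSum d adj) - (h : ℂ) • magOp V d)

section generic

variable (adj : V → V → Prop) [DecidableRel adj] (hadj : ∀ x y, adj x y → x ≠ y)

include hadj

lemma hopSum_conjTranspose : (hopSum d adj)ᴴ = hopSum d adj := by
  unfold hopSum
  rw [Matrix.conjTranspose_sum]
  refine Finset.sum_congr rfl fun x _ => ?_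
  rw [Matrix.conjTranspose_sum]
  refine Finset.sum_congr rfl fun y _ => ?_
  by_cases h : adj x y
  · rw [if_pos h, opB2_conjTranspose (hadj x y h)]
  · rw [if_neg h, Matrix.conjTranspose_zero]

lemma hopSum_transpose : (hopSum d adj)ᵀ = hopSum d adj := by
  unfold hopSum
  rw [Matrix.transpose_sum]
  refine Finset.sum_congr rfl fun x _ => ?_
  rw [Matrix.transpose_sum]
  refine Finset.sum_congr rfl fun y _ => ?_
  by_cases h : adj x y
  · rw [if_pos h, opB2_transpose (hadj x y h)]
  · rw [if_neg h, Matrix.transpose_zero]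

omit hadj in
lemma magOp_conjTranspose : (magOp V d)ᴴ = magOp V d := by
  unfold magOp
  rw [Matrix.conjTranspose_sum]
  exact Finset.sum_congr rfl fun x _ => opZ_conjTranspose d x

omit hadj in
lemma magOp_transpose : (magOp V d)ᵀ = magOp V d := by
  unfold magOp
  rw [Matrix.transpose_sum]
  exact Finset.sum_congr rfl fun x _ => opZ_transpose d x

lemma gibbsX_isHermitian (β h : ℝ) : (gibbsX d adj β h).IsHermitian := by
  unfold gibbsX Matrix.IsHermitian
  simp only [Matrix.conjTranspose_smul, Matrix.conjTranspose_sub, Matrix.conjTranspose_neg,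
    hopSum_conjTranspose adj hadj, magOp_conjTranspose]
  congr 1
  · simp
  · congr 1
    · congr 2
      simp
    · congr 1
      simp

lemma gibbsX_transpose (β h : ℝ) : (gibbsX d adj β h)ᵀ = gibbsX d adj β h := by
  unfold gibbsX
  simp only [Matrix.transpose_smul, Matrix.transpose_sub, Matrix.transpose_neg,
    hopSum_transpose adj hadj, magOp_transpose]

omit hadj in
lemma dcomm_mag (a : V → ℂ) (ha : ∀ z, a z * starRingEnd ℂ (a z) = 1) :
    dcomm (modeA d a) (magOp V d) = -(magOp V d + magOp V d) := by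
  unfold dcomm magOp
  rw [comm_mag_modeAdj]
  have := comm_modeA_modeAdj (d := d) a ha
  rw [← this]
  noncomm_ring

/-- The Gibbs value of the double commutator with the exponent. -/
theorem gs_dcomm_gibbsX (β h : ℝ) (a : V → ℂ) (ha : ∀ z, a z * starRingEnd ℂ (a z) = 1) :
    gs (gibbsX d adj β h) (dcomm (modeA d a) (gibbsX d adj β h))
      = -β * ((1 / 2) * (∑ x, ∑ y, if adj x y then
              Complex.normSq (a x - a y)
                * (gs (gibbsX d adj β h) (opZ d x * opZ d y)
                    + (1 / 2) * gs (gibbsX d adj β h) (opB2 d x y)) else 0)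
            + 2 * h * gs (gibbsX d adj β h) (magOp V d)) := by
  have hX := gibbsX_isHermitian (d := d) adj hadj β h
  have hXs := gibbsX_transpose (d := d) adj hadj β h
  set X := gibbsX d adj β h with hXdef
  have e : dcomm (modeA d a) X = (-(β : ℂ)) • (-((1 / 4 : ℂ) • dcomm (modeA d a) (hopSum d adj))
      + (h : ℂ) • (magOp V d + magOp V d)) := by
    rw [hXdef]
    unfold gibbsX
    rw [dcomm_smul, dcomm_sub, dcomm_neg, dcomm_smul, dcomm_smul, dcomm_mag a ha]
    module
  have e2 : gs X (dcomm (modeA d a) (hopSum d adj))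
      = ∑ x, ∑ y, if adj x y then
          (-2 * Complex.normSq (a x - a y)
            * (gs X (opZ d x * opZ d y) + (1 / 2) * gs X (opB2 d x y))) else 0 := by
    unfold hopSum
    rw [dcomm_sum, gs_sum]
    refine Finset.sum_congr rfl fun x _ => ?_
    rw [dcomm_sum, gs_sum]
    refine Finset.sum_congr rfl fun y _ => ?_
    by_cases hxy : adj x y
    · rw [if_pos hxy, if_pos hxy, gs_dcomm_B2 hX hXs a (hadj x y hxy)]
    · rw [if_neg hxy, if_neg hxy, dcomm_zero, gs_zero]
  have hneg : (-(β : ℂ)) = ((-β : ℝ) : ℂ) := by push_cast; rfl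
  have h14 : (1 / 4 : ℂ) = ((1 / 4 : ℝ) : ℂ) := by push_cast; rfl
  rw [e, hneg, gs_smul_real, gs_add, gs_neg, h14, gs_smul_real, gs_smul_real, gs_add, e2]
  congr 1
  have : ∑ x, ∑ y, (if adj x y then
          (-2 * Complex.normSq (a x - a y)
            * (gs X (opZ d x * opZ d y) + (1 / 2) * gs X (opB2 d x y))) else 0)
      = -2 * ∑ x, ∑ y, (if adj x y then
              Complex.normSq (a x - a y)
                * (gs X (opZ d x * opZ d y) + (1 / 2) * gs X (opB2 d x y)) else 0) := by
    rw [Finset.mul_sum]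
    refine Finset.sum_congr rfl fun x _ => ?_
    rw [Finset.mul_sum]
    refine Finset.sum_congr rfl fun y _ => ?_
    split_ifs
    · ring
    · ring
  rw [this]
  ring

/-- The bound for the bond factor: `⟨S³_x S³_y + S_x·S_y⟩ ≤ 2 S² Z`. -/
lemma gs_bond_le (β h : ℝ) {x y : V} (hxy : x ≠ y) :
    gs (gibbsX d adj β h) (opZ d x * opZ d y) + (1 / 2) * gs (gibbsX d adj β h) (opB2 d x y)
      ≤ (d : ℝ) ^ 2 / 2 * gs (gibbsX d adj β h) 1 := by
  have hX := gibbsX_isHermitian (d := d) adj hadj β h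
  set X := gibbsX d adj β h with hXdef
  have h1 := gs_nonneg_of_form hX (zz_form (d := d) x y)
  have h2 := gs_nonneg_of_form hX (bondGap_form (d := d) hxy)
  unfold bondGap at h2
  have h12 : (1 / 2 : ℂ) = ((1 / 2 : ℝ) : ℂ) := by push_cast; rfl
  rw [gs_sub, gs_smul_real] at h1
  rw [gs_sub, gs_smul_real, h12, gs_smul_real] at h2
  linarith

/-- The tangent inequality for a mode, with the bond factor estimated. -/
theorem tangent_mode (β h : ℝ) (hβ : 0 ≤ β) (a : V → ℂ) (ha : ∀ z, a z * starRingEnd ℂ (a z) = 1)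
    (x0 : ℝ) :
    (Real.exp x0 - 1 + x0 * Real.exp x0) * (2 * gs (gibbsX d adj β h) (magOp V d))
      - Real.exp x0 * β * ((d : ℝ) ^ 2 / 4 * gs (gibbsX d adj β h) 1
            * (∑ x, ∑ y, if adj x y then Complex.normSq (a x - a y) else 0)
          + 2 * h * gs (gibbsX d adj β h) (magOp V d))
      ≤ (Real.exp x0 - 1) ^ 2 *
          gs (gibbsX d adj β h) ((modeA d a)ᴴ * modeA d a) := by
  have hX := gibbsX_isHermitian (d := d) adj hadj β h
  have hR := roepstorff_tangent hX (modeA d a) x0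
  have hcomm := comm_modeA_modeAdj (d := d) a ha
  have hdc := gs_dcomm_gibbsX (d := d) adj hadj β h a ha
  unfold dcomm at hdc
  rw [hcomm] at hR
  rw [hdc] at hR
  set X := gibbsX d adj β h with hXdef
  have hM : gs X ((∑ w, opZ d w) + (∑ w, opZ d w)) = 2 * gs X (magOp V d) := by
    rw [gs_add]
    unfold magOp
    ring
  rw [hM] at hR
  set E := Real.exp x0 with hE
  have hEpos : 0 < E := Real.exp_pos _
  -- the bond sum
  have hbond : (∑ x, ∑ y, if adj x y then
              Complex.normSq (a x - a y)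
                * (gs X (opZ d x * opZ d y) + (1 / 2) * gs X (opB2 d x y)) else 0)
      ≤ (d : ℝ) ^ 2 / 2 * gs X 1 * (∑ x, ∑ y, if adj x y then Complex.normSq (a x - a y) else 0) := by
    rw [Finset.mul_sum]
    refine Finset.sum_le_sum fun x _ => ?_
    rw [Finset.mul_sum]
    refine Finset.sum_le_sum fun y _ => ?_
    by_cases hxy : adj x y
    · rw [if_pos hxy, if_pos hxy]
      have := gs_bond_le (d := d) adj hadj β h (hadj x y hxy)
      rw [← hXdef] at this
      have h2 := mul_le_mul_of_nonneg_left this (Complex.normSq_nonneg (a x - a y))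
      linarith
    · rw [if_neg hxy, if_neg hxy, mul_zero]
  have hEβ : 0 ≤ E * β := mul_nonneg hEpos.le hβ
  have h3 := mul_le_mul_of_nonneg_left hbond hEβ
  nlinarith [hR, h3]

omit hadj in
/-- Parseval for modes. -/
lemma sum_modes {κ : Type} [Fintype κ] (a : κ → V → ℂ) (c : ℂ)
    (hpar : ∀ x y, ∑ k, starRingEnd ℂ (a k x) * a k y = if x = y then c else 0) :
    ∑ k, (modeA d (a k))ᴴ * modeA d (a k) = c • ∑ x, opQ d x * opP d x := by
  have h1 : ∀ k, (modeA d (a k))ᴴ * modeA d (a k)
      = ∑ x, ∑ y, (starRingEnd ℂ (a k x) * a k y) • (opQ d x * opP d y) := by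
    intro k
    rw [modeA_conjTranspose]
    unfold modeA
    rw [Finset.sum_mul_sum]
    simp only [smul_mul_smul_comm]
  simp only [h1]
  rw [Finset.sum_comm, Finset.smul_sum]
  refine Finset.sum_congr rfl fun x _ => ?_
  rw [Finset.sum_comm]
  have h2 : ∀ y, ∑ k, (starRingEnd ℂ (a k x) * a k y) • (opQ d x * opP d y)
      = (∑ k, starRingEnd ℂ (a k x) * a k y) • (opQ d x * opP d y) := by
    intro y; rw [Finset.sum_smul]
  simp only [h2, hpar]
  rw [Finset.sum_eq_single x]
  · simp
  · intro y _ hy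
    rw [if_neg (Ne.symm hy), zero_smul]
  · intro h; exact absurd (Finset.mem_univ _) h

end generic

/-- The site inequality, summed: `∑_x ⟨S⁻_x S⁺_x⟩ ≤ d (S V Z - ⟨M⟩)`. -/
lemma gs_sum_QP_le {X : Matrix (V → Fin (d + 1)) (V → Fin (d + 1)) ℂ} (hX : X.IsHermitian) :
    ∑ x, gs X (opQ d x * opP d x)
      ≤ (d : ℝ) * ((d : ℝ) / 2 * (Fintype.card V : ℝ) * gs X 1 - gs X (magOp V d)) := by
  have hsite : ∀ x : V, gs X (opQ d x * opP d x)
      ≤ (d : ℝ) * ((d : ℝ) / 2 * gs X 1 - gs X (opZ d x)) := by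
    intro x
    have := gs_nonneg_of_form hX (hop_site_form (d := d) x)
    rw [gs_sub, gs_smul_real, gs_sub, gs_smul_real] at this
    linarith
  calc ∑ x, gs X (opQ d x * opP d x)
      ≤ ∑ x : V, (d : ℝ) * ((d : ℝ) / 2 * gs X 1 - gs X (opZ d x)) :=
        Finset.sum_le_sum fun x _ => hsite x
    _ = _ := by
        unfold magOp
        rw [gs_sum, ← Finset.mul_sum, Finset.sum_sub_distrib]
        simp
        left
        ring

end Vale.Agent.Lib.P361
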