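import Mathlib

open scoped Matrix
open Matrix

namespace Vale.Agent.Lib.P361.Gibbs

variable {ι : Type} [Fintype ι] [DecidableEq ι]

/-- Unnormalized Gibbs functional: the real part of `Tr (exp X * O)`. -/
noncomputable def gs (X O : Matrix ι ι ℂ) : ℝ := (trace (NormedSpace.exp X * O)).re

/-- Quadratic form positivity. -/
def FormNonneg (O : Matrix ι ι ℂ) : Prop := ∀ f : ι → ℂ, 0 ≤ (star f ⬝ᵥ (O *ᵥ f)).re

section spectral

variable {X : Matrix ι ι ℂ} (hX : X.IsHermitian)

include hX

/-- The eigenvector matrix. -/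
noncomputable def eU : Matrix ι ι ℂ := (hX.eigenvectorUnitary : Matrix ι ι ℂ)

lemma eU_star_mul : star (eU hX) * eU hX = 1 := Unitary.coe_star_mul_self hX.eigenvectorUnitary

lemma eU_mul_star : eU hX * star (eU hX) = 1 := Unitary.coe_mul_star_self hX.eigenvectorUnitary

lemma spec :
    X = eU hX * diagonal (fun a => (hX.eigenvalues a : ℂ)) * star (eU hX) := by
  have := hX.spectral_theorem
  rw [Unitary.conjStarAlgAut_apply] at this
  exact this

lemma hat_self :
    star (eU hX) * X * eU hX = diagonal (fun a => (hX.eigenvalues a : ℂ)) := by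
  have h0 : star (eU hX) * X * eU hX = star (eU hX) * (eU hX * diagonal (fun a => (hX.eigenvalues a : ℂ)) * star (eU hX)) * eU hX :=
    congrArg (fun M => star (eU hX) * M * eU hX) (spec hX)
  rw [h0]
  have h1 := eU_star_mul hX
  calc star (eU hX) * (eU hX * diagonal (fun a => (hX.eigenvalues a : ℂ)) * star (eU hX)) * eU hX
      = (star (eU hX) * eU hX) * diagonal (fun a => (hX.eigenvalues a : ℂ))
          * (star (eU hX) * eU hX) := by noncomm_ring
    _ = _ := by rw [h1]; simp

lemma exp_eq :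
    NormedSpace.exp X =
      eU hX * diagonal (fun a => ((Real.exp (hX.eigenvalues a) : ℝ) : ℂ)) * star (eU hX) := by
  have hu := eU_star_mul hX
  have hu' := eU_mul_star hX
  have hinv : (eU hX)⁻¹ = star (eU hX) := Matrix.inv_eq_left_inv hu
  have hunit : IsUnit (eU hX) := IsUnit.of_mul_eq_one _ hu'
  have h0 := congrArg NormedSpace.exp (spec hX)
  rw [h0, ← hinv]
  rw [Matrix.exp_conj (eU hX) _ hunit, Matrix.exp_diagonal]
  congr 2
  congr 1
  funext b
  rw [Pi.coe_exp]
  simp [Complex.exp_eq_exp_ℂ]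

lemma trace_exp_mul (O : Matrix ι ι ℂ) :
    trace (NormedSpace.exp X * O) =
      ∑ a, ((Real.exp (hX.eigenvalues a) : ℝ) : ℂ) * (star (eU hX) * O * eU hX) a a := by
  rw [exp_eq hX]
  calc trace (eU hX * diagonal (fun a => ((Real.exp (hX.eigenvalues a) : ℝ) : ℂ))
          * star (eU hX) * O)
      = trace (diagonal (fun a => ((Real.exp (hX.eigenvalues a) : ℝ) : ℂ))
          * (star (eU hX) * O * eU hX)) := by
        rw [show eU hX * diagonal (fun a => ((Real.exp (hX.eigenvalues a) : ℝ) : ℂ))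
              * star (eU hX) * O
            = eU hX * (diagonal (fun a => ((Real.exp (hX.eigenvalues a) : ℝ) : ℂ))
              * (star (eU hX) * O)) by noncomm_ring]
        rw [Matrix.trace_mul_comm]
        congr 1
        noncomm_ring
    _ = _ := by
        simp [Matrix.trace, Matrix.diagonal_mul]

lemma hat_diag_eq_form (O : Matrix ι ι ℂ) (a : ι) :
    (star (eU hX) * O * eU hX) a a = star (fun i => eU hX i a) ⬝ᵥ (O *ᵥ (fun i => eU hX i a)) := by
  simp only [Matrix.mul_apply, dotProduct, Matrix.mulVec, Pi.star_apply, Matrix.star_apply,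
    Finset.mul_sum, Finset.sum_mul]
  rw [Finset.sum_comm]
  refine Finset.sum_congr rfl fun j _ => Finset.sum_congr rfl fun k _ => ?_
  ring

lemma gs_eq (O : Matrix ι ι ℂ) :
    gs X O = ∑ a, Real.exp (hX.eigenvalues a) * ((star (eU hX) * O * eU hX) a a).re := by
  rw [gs, trace_exp_mul hX, Complex.re_sum]
  refine Finset.sum_congr rfl fun a _ => ?_
  rw [Complex.re_ofReal_mul]

lemma gs_nonneg_of_form {O : Matrix ι ι ℂ} (hO : FormNonneg O) : 0 ≤ gs X O := by
  rw [gs_eq hX]
  refine Finset.sum_nonneg fun a _ => mul_nonneg (Real.exp_pos _).le ?_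
  rw [hat_diag_eq_form]
  exact hO _

end spectral

lemma gs_add (X A B : Matrix ι ι ℂ) : gs X (A + B) = gs X A + gs X B := by
  simp [gs, mul_add, Matrix.trace_add]

lemma gs_sub (X A B : Matrix ι ι ℂ) : gs X (A - B) = gs X A - gs X B := by
  simp [gs, mul_sub, Matrix.trace_sub]

lemma gs_neg (X A : Matrix ι ι ℂ) : gs X (-A) = - gs X A := by
  simp [gs, Matrix.trace_neg]

lemma gs_zero (X : Matrix ι ι ℂ) : gs X 0 = 0 := by
  simp [gs]

lemma gs_smul_real (X A : Matrix ι ι ℂ) (c : ℝ) : gs X ((c : ℂ) • A) = c * gs X A := by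
  simp [gs, Matrix.trace_smul]

lemma gs_sum {κ : Type} (X : Matrix ι ι ℂ) (s : Finset κ) (f : κ → Matrix ι ι ℂ) :
    gs X (∑ k ∈ s, f k) = ∑ k ∈ s, gs X (f k) := by
  classical
  induction s using Finset.induction_on with
  | empty => simp [gs_zero]
  | insert a s ha ih => rw [Finset.sum_insert ha, Finset.sum_insert ha, gs_add, ih]

/-- `Z = gs X 1` is positive. -/
lemma gs_one_eq {X : Matrix ι ι ℂ} (hX : X.IsHermitian) :
    gs X 1 = ∑ a, Real.exp (hX.eigenvalues a) := by
  rw [gs_eq hX]
  have h1 := eU_star_mul hX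
  have : ∀ a, ((star (eU hX) * (1 : Matrix ι ι ℂ) * eU hX) a a).re = 1 := by
    intro a
    rw [mul_one, h1]; simp
  exact Finset.sum_congr rfl fun a _ => by rw [this, mul_one]

lemma gs_one_pos {X : Matrix ι ι ℂ} (hX : X.IsHermitian) [Nonempty ι] : 0 < gs X 1 := by
  rw [gs_one_eq hX]
  exact Finset.sum_pos (fun a _ => Real.exp_pos _) Finset.univ_nonempty

/-- The elementary scalar inequality behind the tangent-line form of the Roepstorff-type
inequality. -/
lemma scalar_ineq (E s : ℝ) (hE : 0 < E) :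
    (E * Real.exp s - 1) * (E - 1 - E * s) ≤ (E - 1) ^ 2 := by
  have h1 : 1 + s ≤ Real.exp s := by linarith [Real.add_one_le_exp s]
  have h2 : Real.exp s * (1 - s) ≤ 1 := by
    have h3 : 1 - s ≤ Real.exp (-s) := by linarith [Real.add_one_le_exp (-s)]
    have h4 : Real.exp s * Real.exp (-s) = 1 := by rw [← Real.exp_add]; simp
    calc Real.exp s * (1 - s) ≤ Real.exp s * Real.exp (-s) :=
          mul_le_mul_of_nonneg_left h3 (Real.exp_pos s).le
      _ = 1 := h4
  have key : (E - 1) ^ 2 - (E * Real.exp s - 1) * (E - 1 - E * s)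
      = E ^ 2 * (1 - Real.exp s * (1 - s)) + E * (Real.exp s - 1 - s) := by ring
  have h5 : 0 ≤ E ^ 2 * (1 - Real.exp s * (1 - s)) :=
    mul_nonneg (sq_nonneg E) (by linarith)
  have h6 : 0 ≤ E * (Real.exp s - 1 - s) := mul_nonneg hE.le (by linarith)
  linarith

/-- The pointwise inequality with Boltzmann weights. -/
lemma pair_ineq (x0 E p q u : ℝ) (hq : 0 ≤ q) (hE : E = Real.exp x0) (hp : p = q * Real.exp u) :
    (p - q) * (E - 1 + x0 * E - E * u) ≤ (E - 1) ^ 2 * q := by
  have hEpos : 0 < E := by rw [hE]; exact Real.exp_pos _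
  have := scalar_ineq E (u - x0) hEpos
  have hexp : E * Real.exp (u - x0) = Real.exp u := by
    rw [hE, ← Real.exp_add]; congr 1; ring
  rw [hexp] at this
  have h2 : (p - q) * (E - 1 + x0 * E - E * u) = q * ((Real.exp u - 1) * (E - 1 - E * (u - x0))) := by
    rw [hp]; ring
  rw [h2]
  calc q * ((Real.exp u - 1) * (E - 1 - E * (u - x0))) ≤ q * (E - 1) ^ 2 :=
        mul_le_mul_of_nonneg_left this hq
    _ = (E - 1) ^ 2 * q := by ring

section roepstorff

variable {X : Matrix ι ι ℂ} (hX : X.IsHermitian) (A : Matrix ι ι ℂ)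

include hX

/-- The matrix elements of `A` in the eigenbasis of `X`. -/
noncomputable def hatA (_hX : X.IsHermitian) (A : Matrix ι ι ℂ) : Matrix ι ι ℂ :=
  star (eU _hX) * A * eU _hX

lemma hat_mul (O P : Matrix ι ι ℂ) :
    star (eU hX) * (O * P) * eU hX
      = (star (eU hX) * O * eU hX) * (star (eU hX) * P * eU hX) := by
  have h := eU_mul_star hX
  calc star (eU hX) * (O * P) * eU hX = star (eU hX) * O * 1 * P * eU hX := by noncomm_ring
    _ = star (eU hX) * O * (eU hX * star (eU hX)) * P * eU hX := by rw [h]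
    _ = _ := by noncomm_ring

lemma hat_conjTranspose (O : Matrix ι ι ℂ) :
    star (eU hX) * Oᴴ * eU hX = (star (eU hX) * O * eU hX)ᴴ := by
  simp only [Matrix.conjTranspose_mul, Matrix.star_eq_conjTranspose,
    Matrix.conjTranspose_conjTranspose, mul_assoc]

lemma hat_sub (O P : Matrix ι ι ℂ) :
    star (eU hX) * (O - P) * eU hX
      = (star (eU hX) * O * eU hX) - (star (eU hX) * P * eU hX) := by
  noncomm_ring

/-- `N = Tr (ρ A† A)` in the eigenbasis. -/
lemma gs_adj_mul :
    gs X (Aᴴ * A) =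
      ∑ a, ∑ b, Complex.normSq (hatA hX A a b) * Real.exp (hX.eigenvalues b) := by
  rw [gs_eq hX, Finset.sum_comm]
  refine Finset.sum_congr rfl fun b _ => ?_
  rw [hat_mul, hat_conjTranspose, ← Finset.sum_mul]
  rw [mul_comm]
  congr 1
  rw [Matrix.mul_apply, Complex.re_sum]
  refine Finset.sum_congr rfl fun a _ => ?_
  simp only [Matrix.conjTranspose_apply, hatA]
  rw [Complex.star_def, mul_comm, Complex.mul_conj]
  simp

/-- `Tr (ρ A A†)` in the eigenbasis. -/
lemma gs_mul_adj :
    gs X (A * Aᴴ) =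
      ∑ a, ∑ b, Complex.normSq (hatA hX A a b) * Real.exp (hX.eigenvalues a) := by
  rw [gs_eq hX]
  refine Finset.sum_congr rfl fun a _ => ?_
  rw [hat_mul, hat_conjTranspose, ← Finset.sum_mul]
  rw [mul_comm]
  congr 1
  rw [Matrix.mul_apply, Complex.re_sum]
  refine Finset.sum_congr rfl fun b _ => ?_
  simp only [Matrix.conjTranspose_apply, hatA]
  rw [Complex.star_def, Complex.mul_conj]
  simp

/-- The double commutator in the eigenbasis. -/
lemma gs_double_comm :
    gs X (A * (X * Aᴴ - Aᴴ * X) - (X * Aᴴ - Aᴴ * X) * A) =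
      ∑ a, ∑ b, Complex.normSq (hatA hX A a b) * (hX.eigenvalues b - hX.eigenvalues a)
        * (Real.exp (hX.eigenvalues a) - Real.exp (hX.eigenvalues b)) := by
  have hd := hat_self hX
  rw [gs_sub]
  rw [gs_eq hX, gs_eq hX]
  have e1 : ∀ a, ((star (eU hX) * (A * (X * Aᴴ - Aᴴ * X)) * eU hX) a a).re
      = ∑ b, Complex.normSq (hatA hX A a b) * (hX.eigenvalues b - hX.eigenvalues a) := by
    intro a
    rw [hat_mul, hat_sub, hat_mul, hat_mul, hd, hat_conjTranspose]
    rw [Matrix.mul_apply, Complex.re_sum]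
    refine Finset.sum_congr rfl fun b _ => ?_
    rw [Matrix.sub_apply, Matrix.diagonal_mul, Matrix.mul_diagonal]
    simp only [Matrix.conjTranspose_apply, hatA]
    have : (star (eU hX) * A * eU hX) a b *
        ((hX.eigenvalues b : ℂ) * star ((star (eU hX) * A * eU hX) a b) -
          star ((star (eU hX) * A * eU hX) a b) * (hX.eigenvalues a : ℂ))
        = ((star (eU hX) * A * eU hX) a b * star ((star (eU hX) * A * eU hX) a b))
          * ((hX.eigenvalues b : ℂ) - (hX.eigenvalues a : ℂ)) := by ring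
    rw [this, Complex.star_def, Complex.mul_conj, ← Complex.ofReal_sub, ← Complex.ofReal_mul,
      Complex.ofReal_re]
  have e2 : ∀ b, ((star (eU hX) * ((X * Aᴴ - Aᴴ * X) * A) * eU hX) b b).re
      = ∑ a, Complex.normSq (hatA hX A a b) * (hX.eigenvalues b - hX.eigenvalues a) := by
    intro b
    rw [hat_mul, hat_sub, hat_mul, hat_mul, hd, hat_conjTranspose]
    rw [Matrix.mul_apply, Complex.re_sum]
    refine Finset.sum_congr rfl fun a _ => ?_
    rw [Matrix.sub_apply, Matrix.diagonal_mul, Matrix.mul_diagonal]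
    simp only [Matrix.conjTranspose_apply, hatA]
    have : ((hX.eigenvalues b : ℂ) * star ((star (eU hX) * A * eU hX) a b) -
          star ((star (eU hX) * A * eU hX) a b) * (hX.eigenvalues a : ℂ))
          * (star (eU hX) * A * eU hX) a b
        = ((star (eU hX) * A * eU hX) a b * star ((star (eU hX) * A * eU hX) a b))
          * ((hX.eigenvalues b : ℂ) - (hX.eigenvalues a : ℂ)) := by ring
    rw [this, Complex.star_def, Complex.mul_conj, ← Complex.ofReal_sub, ← Complex.ofReal_mul,
      Complex.ofReal_re]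
  simp only [e1, e2]
  rw [Finset.sum_congr rfl (fun a _ => Finset.mul_sum _ _ _)]
  rw [Finset.sum_congr (s₁ := Finset.univ) rfl (fun b _ => Finset.mul_sum _ _ _)]
  conv_lhs => arg 2; rw [Finset.sum_comm]
  rw [← Finset.sum_sub_distrib]
  refine Finset.sum_congr rfl fun a _ => ?_
  rw [← Finset.sum_sub_distrib]
  refine Finset.sum_congr rfl fun b _ => ?_
  ring

/-- **Tangent-line form of the Roepstorff-type inequality.** For the state `ρ = exp X`, any `A`, and
any real `x0`, with `E = exp x0`,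
`(E - 1 + x0 E) Tr ρ[A,A†] + E Tr ρ[A,[X,A†]] ≤ (E-1)² Tr ρ A†A`. -/
theorem roepstorff_tangent (x0 : ℝ) :
    (Real.exp x0 - 1 + x0 * Real.exp x0) * gs X (A * Aᴴ - Aᴴ * A)
        + Real.exp x0 * gs X (A * (X * Aᴴ - Aᴴ * X) - (X * Aᴴ - Aᴴ * X) * A)
      ≤ (Real.exp x0 - 1) ^ 2 * gs X (Aᴴ * A) := by
  set E := Real.exp x0 with hE
  rw [gs_double_comm hX, gs_sub, gs_adj_mul hX, gs_mul_adj hX]
  simp only [Finset.mul_sum, ← Finset.sum_sub_distrib, ← Finset.sum_add_distrib]
  refine Finset.sum_le_sum fun a _ => Finset.sum_le_sum fun b _ => ?_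
  set w := Complex.normSq (hatA hX A a b) with hw
  have hw0 : 0 ≤ w := Complex.normSq_nonneg _
  have hpair := pair_ineq x0 E (Real.exp (hX.eigenvalues a)) (Real.exp (hX.eigenvalues b))
    (hX.eigenvalues a - hX.eigenvalues b) (Real.exp_pos _).le hE
    (by rw [← Real.exp_add]; congr 1; ring)
  have := mul_le_mul_of_nonneg_left hpair hw0
  nlinarith [this]

end roepstorff

section peierls

variable {X Y : Matrix ι ι ℂ} (hX : X.IsHermitian) (hY : Y.IsHermitian)

include hX hY

/-- **Peierls-Bogoliubov inequality** in exponential form. -/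
theorem peierls_bogoliubov [Nonempty ι] :
    gs X 1 * Real.exp (gs X (Y - X) / gs X 1) ≤ gs Y 1 := by
  classical
  -- the overlap matrix
  set W := star (eU hX) * eU hY with hW
  set T : ι → ι → ℝ := fun i j => Complex.normSq (W i j) with hT
  have hT0 : ∀ i j, 0 ≤ T i j := fun i j => Complex.normSq_nonneg _
  have hWW : W * Wᴴ = 1 := by
    have h1 := eU_mul_star hY
    have h2 := eU_star_mul hX
    have : W * Wᴴ = star (eU hX) * (eU hY * star (eU hY)) * eU hX := by
      simp only [hW, Matrix.conjTranspose_mul, Matrix.star_eq_conjTranspose,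
        Matrix.conjTranspose_conjTranspose, mul_assoc]
    rw [this, h1, mul_one, h2]
  have hWW' : Wᴴ * W = 1 := by
    have h1 := eU_mul_star hX
    have h2 := eU_star_mul hY
    have : Wᴴ * W = star (eU hY) * (eU hX * star (eU hX)) * eU hY := by
      simp only [hW, Matrix.conjTranspose_mul, Matrix.star_eq_conjTranspose,
        Matrix.conjTranspose_conjTranspose, mul_assoc]
    rw [this, h1, mul_one, h2]
  have hrow : ∀ i, ∑ j, T i j = 1 := by
    intro i
    have := congrFun (congrFun hWW i) i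
    rw [Matrix.mul_apply, Matrix.one_apply_eq] at this
    have h2 := congrArg Complex.re this
    rw [Complex.re_sum] at h2
    simp only [Matrix.conjTranspose_apply, Complex.star_def, Complex.mul_conj] at h2
    simpa [hT] using h2
  have hcol : ∀ j, ∑ i, T i j = 1 := by
    intro j
    have := congrFun (congrFun hWW' j) j
    rw [Matrix.mul_apply, Matrix.one_apply_eq] at this
    have h2 := congrArg Complex.re this
    rw [Complex.re_sum] at h2
    simp only [Matrix.conjTranspose_apply, Complex.star_def] at h2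
    have h3 : ∀ i, ((starRingEnd ℂ) (W i j) * W i j).re = T i j := by
      intro i
      rw [mul_comm, Complex.mul_conj]
      simp [hT]
    simp only [h3] at h2
    exact h2
  -- diagonal of Y in the eigenbasis of X
  have hYdiag : ∀ i, ((star (eU hX) * Y * eU hX) i i).re = ∑ j, T i j * hY.eigenvalues j := by
    intro i
    have e : star (eU hX) * Y * eU hX
        = W * diagonal (fun a => (hY.eigenvalues a : ℂ)) * Wᴴ := by
      have h0 : star (eU hX) * Y * eU hX = star (eU hX) * (eU hY * diagonal (fun a => (hY.eigenvalues a : ℂ)) * star (eU hY)) * eU hX :=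
        congrArg (fun M => star (eU hX) * M * eU hX) (spec hY)
      rw [h0]
      simp only [hW, Matrix.conjTranspose_mul, Matrix.star_eq_conjTranspose,
        Matrix.conjTranspose_conjTranspose, mul_assoc]
    rw [e, Matrix.mul_apply, Complex.re_sum]
    refine Finset.sum_congr rfl fun j _ => ?_
    rw [Matrix.mul_diagonal, Matrix.conjTranspose_apply]
    have : W i j * (hY.eigenvalues j : ℂ) * star (W i j)
        = (W i j * star (W i j)) * (hY.eigenvalues j : ℂ) := by ring
    rw [this, Complex.star_def, Complex.mul_conj, ← Complex.ofReal_mul, Complex.ofReal_re]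
  have hXdiag : ∀ i, ((star (eU hX) * X * eU hX) i i).re = hX.eigenvalues i := by
    intro i
    rw [hat_self hX]
    simp
  set ξ := hX.eigenvalues with hξ
  set η := hY.eigenvalues with hη
  set ZX := gs X 1 with hZX
  have hZXpos : 0 < ZX := gs_one_pos hX
  have hZXeq : ZX = ∑ i, Real.exp (ξ i) := gs_one_eq hX
  set Δ := gs X (Y - X) / ZX with hΔ
  have hDelta : gs X (Y - X) = ∑ i, Real.exp (ξ i) * (∑ j, T i j * η j - ξ i) := by
    rw [gs_eq hX]
    refine Finset.sum_congr rfl fun i _ => ?_
    rw [hat_sub, Matrix.sub_apply, Complex.sub_re, hYdiag, hXdiag]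
  have hZY : gs Y 1 = ∑ j, Real.exp (η j) := gs_one_eq hY
  -- double sum
  have key : ∀ i j, T i j * (Real.exp (ξ i + Δ) * (1 + η j - ξ i - Δ)) ≤ T i j * Real.exp (η j) := by
    intro i j
    refine mul_le_mul_of_nonneg_left ?_ (hT0 i j)
    have := Real.add_one_le_exp (η j - ξ i - Δ)
    have h2 : Real.exp (η j) = Real.exp (ξ i + Δ) * Real.exp (η j - ξ i - Δ) := by
      rw [← Real.exp_add]; congr 1; ring
    rw [h2]
    refine mul_le_mul_of_nonneg_left ?_ (Real.exp_pos _).le
    linarith
  have hsum := Finset.sum_le_sum (s := Finset.univ) fun i (_ : i ∈ Finset.univ) =>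
    Finset.sum_le_sum (s := Finset.univ) fun j (_ : j ∈ Finset.univ) => key i j
  have hright : ∑ i, ∑ j, T i j * Real.exp (η j) = gs Y 1 := by
    rw [hZY, Finset.sum_comm]
    refine Finset.sum_congr rfl fun j _ => ?_
    rw [← Finset.sum_mul, hcol, one_mul]
  have hleft : ∑ i, ∑ j, T i j * (Real.exp (ξ i + Δ) * (1 + η j - ξ i - Δ))
      = Real.exp Δ * (ZX * (1 - Δ) + gs X (Y - X)) := by
    rw [hDelta, hZXeq]
    rw [Finset.sum_mul, ← Finset.sum_add_distrib, Finset.mul_sum]
    refine Finset.sum_congr rfl fun i _ => ?_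
    have h1 : ∑ j, T i j * (Real.exp (ξ i + Δ) * (1 + η j - ξ i - Δ))
        = Real.exp (ξ i + Δ) * ((1 - ξ i - Δ) * ∑ j, T i j + ∑ j, T i j * η j) := by
      rw [Finset.mul_sum, mul_add, Finset.mul_sum, Finset.mul_sum, ← Finset.sum_add_distrib]
      refine Finset.sum_congr rfl fun j _ => ?_
      ring
    rw [h1, hrow, Real.exp_add]
    ring
  rw [hleft, hright] at hsum
  have hsimp : ZX * (1 - Δ) + gs X (Y - X) = ZX := by
    rw [hΔ]; field_simp; ring
  rw [hsimp] at hsum
  linarith [hsum, mul_comm ZX (Real.exp Δ)]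

/-- Peierls-Bogoliubov in logarithmic form. -/
theorem log_peierls_bogoliubov [Nonempty ι] :
    Real.log (gs X 1) + gs X (Y - X) / gs X 1 ≤ Real.log (gs Y 1) := by
  have h := peierls_bogoliubov hX hY
  have hZ := gs_one_pos hX
  have hlog := Real.log_le_log (mul_pos hZ (Real.exp_pos _)) h
  rwa [Real.log_mul hZ.ne' (Real.exp_pos _).ne', Real.log_exp] at hlog

end peierls

end Vale.Agent.Lib.P361.Gibbs
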