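import Vale.Agent.Lib.P361.Gen

open scoped Matrix
open Matrix

set_option linter.unusedSectionVars false

namespace Vale.Agent.Lib.P361

open Gibbs

/-- The linear size of the box. -/
abbrev sideL (N : ℕ) : ℕ := 2 * N + 1

lemma card_site (N : ℕ) : Fintype.card (Site N) = (sideL N) ^ 3 := by
  unfold Site
  rw [Fintype.card_fun, Fintype.card_fin, Fintype.card_coe, Int.card_Icc]
  congr 1
  unfold sideL
  omega

instance (N : ℕ) : Nonempty (Site N) :=
  ⟨fun _ => ⟨0, by simp⟩⟩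

lemma dist1_self {N : ℕ} (x : Site N) : dist1 x x = 0 := by
  simp [dist1]

lemma adj_ne {N : ℕ} (x y : Site N) (h : dist1 x y = 1) : x ≠ y := by
  intro e
  subst e
  rw [dist1_self] at h
  exact absurd h (by norm_num)

lemma adj_cases {N : ℕ} {x y : Site N} (h : dist1 x y = 1) :
    ∃ j : Fin 3, ∃ s : ℤ, (s = 1 ∨ s = -1) ∧ ((y j : ℤ) = (x j : ℤ) + s) ∧ ∀ i, i ≠ j → y i = x i := by
  unfold dist1 at h
  rw [Fin.sum_univ_three] at h
  have ext_of : ∀ i : Fin 3, (x i : ℤ) = (y i : ℤ) → y i = x i := fun i hi => Subtype.ext hi.symm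
  rcases abs_cases ((x 0 : ℤ) - (y 0 : ℤ)) with ⟨h0, _⟩ | ⟨h0, _⟩ <;>
  rcases abs_cases ((x 1 : ℤ) - (y 1 : ℤ)) with ⟨h1, _⟩ | ⟨h1, _⟩ <;>
  rcases abs_cases ((x 2 : ℤ) - (y 2 : ℤ)) with ⟨h2, _⟩ | ⟨h2, _⟩ <;>
  rw [h0, h1, h2] at h <;>
  · by_cases e0 : (x 0 : ℤ) = (y 0 : ℤ)
    · by_cases e1 : (x 1 : ℤ) = (y 1 : ℤ)
      · refine ⟨2, (y 2 : ℤ) - (x 2 : ℤ), by omega, by omega, ?_⟩
        intro i hi
        fin_cases i
        · exact ext_of 0 e0
        · exact ext_of 1 e1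
        · exact absurd rfl hi
      · refine ⟨1, (y 1 : ℤ) - (x 1 : ℤ), by omega, by omega, ?_⟩
        intro i hi
        fin_cases i
        · exact ext_of 0 e0
        · exact absurd rfl hi
        · exact ext_of 2 (by omega)
    · refine ⟨0, (y 0 : ℤ) - (x 0 : ℤ), by omega, by omega, ?_⟩
      intro i hi
      fin_cases i
      · exact absurd rfl hi
      · exact ext_of 1 (by omega)
      · exact ext_of 2 (by omega)

lemma card_le_one_shift {N : ℕ} (x : Site N) (j : Fin 3) (s : ℤ) :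
    (Finset.univ.filter (fun y : Site N =>
      ((y j : ℤ) = (x j : ℤ) + s) ∧ ∀ i, i ≠ j → y i = x i)).card ≤ 1 := by
  rw [Finset.card_le_one]
  intro a ha b hb
  simp only [Finset.mem_filter, Finset.mem_univ, true_and] at ha hb
  funext i
  by_cases hi : i = j
  · subst hi
    exact Subtype.ext (by rw [ha.1, hb.1])
  · rw [ha.2 i hi, hb.2 i hi]

lemma sum_shift_le {N : ℕ} (x : Site N) (j : Fin 3) (s : ℤ) (w : ℝ) (hw : 0 ≤ w) :
    ∑ y : Site N, (if ((y j : ℤ) = (x j : ℤ) + s) ∧ ∀ i, i ≠ j → y i = x i then w else 0) ≤ w := by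
  rw [← Finset.sum_filter, Finset.sum_const, nsmul_eq_mul]
  have := card_le_one_shift x j s
  have h2 : ((Finset.univ.filter (fun y : Site N =>
      ((y j : ℤ) = (x j : ℤ) + s) ∧ ∀ i, i ≠ j → y i = x i)).card : ℝ) ≤ 1 := by
    exact_mod_cast this
  nlinarith

/-- Neighbours of a site are counted at most twice in each lattice direction. -/
lemma neighbor_sum_le {N : ℕ} (x : Site N) (f : Site N → ℝ) (W : Fin 3 → ℝ) (hW : ∀ j, 0 ≤ W j)
    (hf : ∀ y j s, (s = (1 : ℤ) ∨ s = -1) → ((y j : ℤ) = (x j : ℤ) + s) →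
      (∀ i, i ≠ j → y i = x i) → f y ≤ W j) :
    ∑ y : Site N, (if dist1 x y = 1 then f y else 0) ≤ ∑ j, 2 * W j := by
  have hpt : ∀ y : Site N, (if dist1 x y = 1 then f y else 0)
      ≤ ∑ j, ((if ((y j : ℤ) = (x j : ℤ) + 1) ∧ ∀ i, i ≠ j → y i = x i then W j else 0)
          + (if ((y j : ℤ) = (x j : ℤ) + (-1)) ∧ ∀ i, i ≠ j → y i = x i then W j else 0)) := by
    intro y
    have hnn : ∀ j ∈ Finset.univ, 0 ≤
        ((if ((y j : ℤ) = (x j : ℤ) + 1) ∧ ∀ i, i ≠ j → y i = x i then W j else 0)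
          + (if ((y j : ℤ) = (x j : ℤ) + (-1)) ∧ ∀ i, i ≠ j → y i = x i then W j else 0)) := by
      intro j _
      apply add_nonneg <;> split_ifs <;> first | exact hW j | exact le_rfl
    by_cases h : dist1 x y = 1
    · rw [if_pos h]
      obtain ⟨j, s, hs, hj, hi⟩ := adj_cases h
      have h1 := hf y j s hs hj hi
      refine le_trans ?_ (Finset.single_le_sum hnn (Finset.mem_univ j))
      rcases hs with rfl | rfl
      · rw [if_pos ⟨hj, hi⟩]
        have : 0 ≤ (if ((y j : ℤ) = (x j : ℤ) + (-1)) ∧ ∀ i, i ≠ j → y i = x i then W j else 0) := by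
          split_ifs <;> first | exact hW j | exact le_rfl
        linarith
      · have h2 : (if ((y j : ℤ) = (x j : ℤ) + (-1)) ∧ ∀ i, i ≠ j → y i = x i then W j else 0) = W j :=
          if_pos ⟨hj, hi⟩
        rw [h2]
        have : 0 ≤ (if ((y j : ℤ) = (x j : ℤ) + 1) ∧ ∀ i, i ≠ j → y i = x i then W j else 0) := by
          split_ifs <;> first | exact hW j | exact le_rfl
        linarith
    · rw [if_neg h]
      exact Finset.sum_nonneg hnn
  calc ∑ y : Site N, (if dist1 x y = 1 then f y else 0)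
      ≤ ∑ y : Site N, ∑ j, ((if ((y j : ℤ) = (x j : ℤ) + 1) ∧ ∀ i, i ≠ j → y i = x i then W j else 0)
          + (if ((y j : ℤ) = (x j : ℤ) + (-1)) ∧ ∀ i, i ≠ j → y i = x i then W j else 0)) :=
        Finset.sum_le_sum fun y _ => hpt y
    _ = ∑ j, (∑ y : Site N, (if ((y j : ℤ) = (x j : ℤ) + 1) ∧ ∀ i, i ≠ j → y i = x i then W j else 0)
          + ∑ y : Site N, (if ((y j : ℤ) = (x j : ℤ) + (-1)) ∧ ∀ i, i ≠ j → y i = x i then W j else 0)) := by
        rw [Finset.sum_comm]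
        refine Finset.sum_congr rfl fun j _ => ?_
        rw [Finset.sum_add_distrib]
    _ ≤ ∑ j, 2 * W j := by
        refine Finset.sum_le_sum fun j _ => ?_
        have h1 := sum_shift_le x j 1 (W j) (hW j)
        have h2 := sum_shift_le x j (-1) (W j) (hW j)
        linarith

/-! ### Modes -/

/-- The momentum angle `2π m / L`. -/
noncomputable def ang (L : ℕ) (m : ℕ) : ℝ := 2 * Real.pi * (m : ℝ) / (L : ℝ)

/-- The phase `k · x`. -/
noncomputable def phase {N : ℕ} (l : Fin 3 → Fin (sideL N)) (x : Site N) : ℝ :=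
  ∑ j, ang (sideL N) (l j) * ((x j : ℤ) : ℝ)

/-- The plane wave. -/
noncomputable def wave {N : ℕ} (l : Fin 3 → Fin (sideL N)) (x : Site N) : ℂ :=
  Complex.exp ((phase l x : ℂ) * Complex.I)

lemma wave_unimodular {N : ℕ} (l : Fin 3 → Fin (sideL N)) (x : Site N) :
    wave l x * starRingEnd ℂ (wave l x) = 1 := by
  unfold wave
  rw [Complex.mul_conj, Complex.normSq_eq_norm_sq, Complex.norm_exp_ofReal_mul_I]
  simp

lemma normSq_exp_sub (α γ : ℝ) :
    Complex.normSq (Complex.exp ((α : ℂ) * Complex.I) - Complex.exp ((γ : ℂ) * Complex.I))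
      = 2 * (1 - Real.cos (α - γ)) := by
  rw [Complex.normSq_sub, Complex.normSq_eq_norm_sq, Complex.normSq_eq_norm_sq,
    Complex.norm_exp_ofReal_mul_I, Complex.norm_exp_ofReal_mul_I]
  have : Complex.exp ((α : ℂ) * Complex.I) * starRingEnd ℂ (Complex.exp ((γ : ℂ) * Complex.I))
      = Complex.exp (((α - γ : ℝ) : ℂ) * Complex.I) := by
    rw [← Complex.exp_conj, ← Complex.exp_add]
    congr 1
    simp only [map_mul, Complex.conj_ofReal, Complex.conj_I]
    push_cast
    ring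
  rw [this, Complex.exp_ofReal_mul_I_re]
  ring

/-- The difference of the plane wave across a bond. -/
lemma wave_bond {N : ℕ} (l : Fin 3 → Fin (sideL N)) {x y : Site N} {j : Fin 3} {s : ℤ}
    (hs : s = 1 ∨ s = -1) (hj : (y j : ℤ) = (x j : ℤ) + s) (hi : ∀ i, i ≠ j → y i = x i) :
    Complex.normSq (wave l x - wave l y) = 2 * (1 - Real.cos (ang (sideL N) (l j))) := by
  unfold wave
  rw [normSq_exp_sub]
  have : phase l x - phase l y = - (s : ℝ) * ang (sideL N) (l j) := by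
    unfold phase
    rw [← Finset.sum_sub_distrib, Finset.sum_eq_single j]
    · rw [hj]; push_cast; ring
    · intro i _ hij
      rw [hi i hij]; ring
    · intro h; exact absurd (Finset.mem_univ _) h
  rw [this]
  rcases hs with rfl | rfl
  · simp [Real.cos_neg]
  · simp

/-- The dispersion `κ(l) = ∑_j (1 - cos k_j)`. -/
noncomputable def kappa {N : ℕ} (l : Fin 3 → Fin (sideL N)) : ℝ :=
  ∑ j, (1 - Real.cos (ang (sideL N) (l j)))

lemma kappa_nonneg {N : ℕ} (l : Fin 3 → Fin (sideL N)) : 0 ≤ kappa l :=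
  Finset.sum_nonneg fun j _ => by linarith [Real.cos_le_one (ang (sideL N) (l j))]

/-- The total bond energy of the plane wave. -/
lemma wave_omega_le {N : ℕ} (l : Fin 3 → Fin (sideL N)) :
    (∑ x : Site N, ∑ y : Site N, if dist1 x y = 1 then Complex.normSq (wave l x - wave l y) else 0)
      ≤ (sideL N : ℝ) ^ 3 * (4 * kappa l) := by
  have hx : ∀ x : Site N, (∑ y : Site N, if dist1 x y = 1 then
      Complex.normSq (wave l x - wave l y) else 0) ≤ 4 * kappa l := by
    intro x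
    have := neighbor_sum_le x (fun y => Complex.normSq (wave l x - wave l y))
      (fun j => 2 * (1 - Real.cos (ang (sideL N) (l j))))
      (fun j => by linarith [Real.cos_le_one (ang (sideL N) (l j))])
      (fun y j s hs hj hi => le_of_eq (wave_bond l hs hj hi))
    refine le_trans this (le_of_eq ?_)
    unfold kappa
    rw [Finset.mul_sum]
    refine Finset.sum_congr rfl fun j _ => ?_
    ring
  calc _ ≤ ∑ x : Site N, 4 * kappa l := Finset.sum_le_sum fun x _ => hx x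
    _ = _ := by
      rw [Finset.sum_const, Finset.card_univ, card_site, nsmul_eq_mul]
      push_cast
      ring

/-- Orthogonality of characters of `ℤ / L`. -/
lemma root_sum (L : ℕ) (hL : 0 < L) (u : ℤ) (hu : |u| < (L : ℤ)) :
    ∑ m : Fin L, Complex.exp (((ang L m * (u : ℝ) : ℝ) : ℂ) * Complex.I)
      = if u = 0 then (L : ℂ) else 0 := by
  set ξ : ℂ := Complex.exp (((ang L 1 * (u : ℝ) : ℝ) : ℂ) * Complex.I) with hξ
  have hL' : (L : ℝ) ≠ 0 := by exact_mod_cast hL.ne'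
  have hpow : ∀ m : ℕ, Complex.exp (((ang L m * (u : ℝ) : ℝ) : ℂ) * Complex.I) = ξ ^ m := by
    intro m
    rw [hξ, ← Complex.exp_nat_mul]
    congr 1
    unfold ang
    push_cast
    ring
  simp only [hpow]
  rw [Fin.sum_univ_eq_sum_range (fun m => ξ ^ m) L]
  by_cases hu0 : u = 0
  · rw [if_pos hu0]
    have : ξ = 1 := by
      rw [hξ, hu0]; simp
    rw [this]; simp
  · rw [if_neg hu0]
    have hξL : ξ ^ L = 1 := by
      rw [← hpow L]
      have : ((ang L L * (u : ℝ) : ℝ) : ℂ) * Complex.I = (u : ℂ) * (2 * Real.pi * Complex.I) := by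
        unfold ang
        have hL'' : (L : ℂ) ≠ 0 := by exact_mod_cast hL.ne'
        push_cast
        field_simp
      rw [this]
      exact Complex.exp_int_mul_two_pi_mul_I u
    have hξ1 : ξ ≠ 1 := by
      intro h1
      rw [hξ, Complex.exp_eq_one_iff] at h1
      obtain ⟨n, hn⟩ := h1
      have hpi : (Real.pi : ℂ) ≠ 0 := by exact_mod_cast Real.pi_ne_zero
      have hL'' : (L : ℂ) ≠ 0 := by exact_mod_cast hL.ne'
      unfold ang at hn
      push_cast at hn
      have hI := Complex.I_ne_zero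
      have h3 : (u : ℂ) = (n : ℂ) * (L : ℂ) := by
        field_simp at hn
        rw [hn]; ring
      have h5 : u = n * (L : ℤ) := by exact_mod_cast h3
      have hn0 : n ≠ 0 := by
        rintro rfl
        simp at h5
        exact hu0 h5
      have h6 : (L : ℤ) ≤ |u| := by
        rw [h5, abs_mul]
        have : 1 ≤ |n| := Int.one_le_abs hn0
        have h7 : |(L : ℤ)| = L := abs_of_nonneg (by positivity)
        rw [h7]
        nlinarith
      omega
    rw [geom_sum_eq hξ1, hξL]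
    simp

/-- Site coordinates differ by less than `L`. -/
lemma coord_diff_lt {N : ℕ} (a b : Finset.Icc (-(N : ℤ)) (N : ℤ)) :
    |(b : ℤ) - (a : ℤ)| < ((sideL N : ℕ) : ℤ) := by
  have ha := Finset.mem_Icc.mp a.2
  have hb := Finset.mem_Icc.mp b.2
  rw [abs_lt]
  push_cast [sideL]
  constructor <;> omega

/-- Plancherel for the plane waves of the box. -/
lemma wave_parseval {N : ℕ} (x y : Site N) :
    ∑ l : Fin 3 → Fin (sideL N), starRingEnd ℂ (wave l x) * wave l y
      = if x = y then ((sideL N : ℂ) ^ 3) else 0 := by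
  have hterm : ∀ l : Fin 3 → Fin (sideL N), starRingEnd ℂ (wave l x) * wave l y
      = ∏ j, Complex.exp (((ang (sideL N) (l j) * (((y j : ℤ) - (x j : ℤ) : ℤ) : ℝ) : ℝ) : ℂ) * Complex.I) := by
    intro l
    unfold wave
    rw [← Complex.exp_conj, ← Complex.exp_add, ← Complex.exp_sum]
    congr 1
    simp only [map_mul, Complex.conj_ofReal, Complex.conj_I]
    unfold phase
    rw [← Finset.sum_mul]
    rw [show ((∑ j, ang (sideL N) (l j) * ((x j : ℤ) : ℝ) : ℝ) : ℂ) * -Complex.I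
        + ((∑ j, ang (sideL N) (l j) * ((y j : ℤ) : ℝ) : ℝ) : ℂ) * Complex.I
        = (((∑ j, ang (sideL N) (l j) * ((y j : ℤ) : ℝ) : ℝ) : ℂ)
          - ((∑ j, ang (sideL N) (l j) * ((x j : ℤ) : ℝ) : ℝ) : ℂ)) * Complex.I by ring]
    congr 1
    push_cast
    rw [← Finset.sum_sub_distrib]
    refine Finset.sum_congr rfl fun j _ => ?_
    ring
  simp only [hterm]
  have hprod := Finset.prod_univ_sum (fun _ : Fin 3 => (Finset.univ : Finset (Fin (sideL N))))
    (fun j m => Complex.exp (((ang (sideL N) m * (((y j : ℤ) - (x j : ℤ) : ℤ) : ℝ) : ℝ) : ℂ) * Complex.I))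
  rw [Fintype.piFinset_univ] at hprod
  rw [← hprod]
  have h1 : ∀ j : Fin 3, ∑ m : Fin (sideL N),
      Complex.exp (((ang (sideL N) m * (((y j : ℤ) - (x j : ℤ) : ℤ) : ℝ) : ℝ) : ℂ) * Complex.I)
      = if (y j : ℤ) - (x j : ℤ) = 0 then ((sideL N : ℕ) : ℂ) else 0 :=
    fun j => root_sum (sideL N) (Nat.succ_pos _) _ (coord_diff_lt _ _)
  simp only [h1]
  by_cases hxy : x = y
  · subst hxy
    simp
  · rw [if_neg hxy]
    obtain ⟨j, hj⟩ : ∃ j, x j ≠ y j := by
      by_contra hcon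
      apply hxy
      funext j
      by_contra hj
      exact hcon ⟨j, hj⟩
    refine Finset.prod_eq_zero (Finset.mem_univ j) ?_
    rw [if_neg]
    intro h
    apply hj
    apply Subtype.ext
    omega

/-! ### The Hamiltonian of the statement -/

/-- The adjacency relation of the box. -/
abbrev adjBox (N : ℕ) : Site N → Site N → Prop := fun x y => dist1 x y = 1

lemma adjBox_ne (N : ℕ) : ∀ x y : Site N, adjBox N x y → x ≠ y := adj_ne

lemma exponent_eq (d N : ℕ) (β h : ℝ) :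
    (-(β : ℂ)) • (hamiltonian d N - (h : ℂ) • magnetization d N) = gibbsX d (adjBox N) β h := by
  have h1 : hamiltonian d N = -((1 / 4 : ℂ) • hopSum d (adjBox N)) := by
    unfold hamiltonian hopSum
    congr 1
    simp only [bond_eq]
    have h0 : ∀ x y : Site N, (if dist1 x y = 1 then (1 / 2 : ℂ) • opB2 d x y else 0)
        = (1 / 2 : ℂ) • (if adjBox N x y then opB2 d x y else 0) := by
      intro x y
      by_cases hxy : dist1 x y = 1
      · rw [if_pos hxy, if_pos hxy]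
      · rw [if_neg hxy, if_neg hxy, smul_zero]
    simp only [h0, ← Finset.smul_sum, smul_smul]
    norm_num
  have h2 : magnetization d N = magOp (Site N) d := rfl
  unfold gibbsX
  rw [h1, h2]

/-- The Gibbs exponent of the box. -/
noncomputable def boxX (d N : ℕ) (β h : ℝ) :
    Matrix (Site N → Fin (d + 1)) (Site N → Fin (d + 1)) ℂ := gibbsX d (adjBox N) β h

lemma boxX_hermitian (d N : ℕ) (β h : ℝ) : (boxX d N β h).IsHermitian :=
  gibbsX_isHermitian (adjBox N) (adjBox_ne N) β h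

/-- The magnetization per site of the finite-volume Gibbs state. -/
noncomputable def magDensity (d : ℕ) (β h : ℝ) (N : ℕ) : ℝ :=
  gs (boxX d N β h) (magOp (Site N) d) / (gs (boxX d N β h) 1 * (sideL N : ℝ) ^ 3)

lemma finitePressure_eq (d : ℕ) (β h : ℝ) (N : ℕ) :
    finitePressure d β h N
      = Real.log (gs (boxX d N β h) 1) / (β * (sideL N : ℝ) ^ 3) := by
  unfold finitePressure boxX
  rw [exponent_eq, card_site]
  push_cast
  simp [gs]

lemma Z_pos (d N : ℕ) (β h : ℝ) : 0 < gs (boxX d N β h) 1 :=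
  gs_one_pos (boxX_hermitian d N β h)

/-- The finite-volume Riemann sum. -/
noncomputable def Tsum (L : ℕ) (t : ℝ) : ℝ :=
  (1 / (L : ℝ)) * ∑ m : Fin L, Real.exp (-t * (1 - Real.cos (ang L m)))

/-- A geometric series bound. -/
lemma geom_exp_le (x : ℝ) (hx : 0 < x) (R : ℕ) :
    ∑ r ∈ Finset.range R, Real.exp (-(((r : ℝ) + 1) * x)) ≤ 1 / (Real.exp x - 1) := by
  have hE : 1 < Real.exp x := by simpa using Real.exp_lt_exp.mpr hx
  have hpos : 0 < Real.exp x - 1 := by linarith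
  rw [le_div_iff₀ hpos]
  have hterm : ∀ r : ℕ, Real.exp (-(((r : ℝ) + 1) * x)) * (Real.exp x - 1)
      = Real.exp (-((r : ℝ) * x)) - Real.exp (-(((r : ℝ) + 1) * x)) := by
    intro r
    have : Real.exp (-(((r : ℝ) + 1) * x)) * Real.exp x = Real.exp (-((r : ℝ) * x)) := by
      rw [← Real.exp_add]; congr 1; ring
    rw [mul_sub, this, mul_one]
  rw [Finset.sum_mul]
  simp only [hterm]
  have := Finset.sum_range_sub' (fun r : ℕ => Real.exp (-((r : ℝ) * x))) R
  have h2 : ∀ r : ℕ, Real.exp (-((r : ℝ) * x)) - Real.exp (-(((r : ℝ) + 1) * x))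
      = Real.exp (-((r : ℝ) * x)) - Real.exp (-(((r + 1 : ℕ) : ℝ) * x)) := by
    intro r; push_cast; rfl
  simp only [h2]
  rw [this]
  simp
  positivity

/-- The algebra of the mode bound. -/
lemma fv_alg (E x β h d2 κ μ' μ n Z Ω N_l A : ℝ) (hE : 1 < E) (hx : x = β * h + A)
    (hA : A * μ' = β * d2 * κ / 2) (hβ : 0 < β) (hd2 : 0 ≤ d2) (hκ : 0 ≤ κ) (hμ' : 0 < μ')
    (hμ : μ' ≤ μ) (hn : 0 < n) (hZ : 0 < Z) (hΩ : Ω ≤ n * (4 * κ))
    (ht : (E - 1 + x * E) * (2 * (μ * (Z * n)))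
          - E * β * (d2 / 4 * Z * Ω + 2 * h * (μ * (Z * n))) ≤ (E - 1) ^ 2 * N_l) :
    2 * n * Z * μ ≤ (E - 1) * N_l := by
  have hEm : 0 < E - 1 := by linarith
  have hE0 : 0 < E := by linarith
  have hA0 : 0 ≤ A := by
    have h1 : 0 ≤ β * d2 * κ / 2 := by positivity
    rw [← hA] at h1
    exact nonneg_of_mul_nonneg_left h1 hμ'
  have h1 : E * β * (d2 / 4 * Z * Ω) ≤ E * β * (d2 / 4 * Z * (n * (4 * κ))) := by
    apply mul_le_mul_of_nonneg_left _ (by positivity)
    exact mul_le_mul_of_nonneg_left hΩ (by positivity)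
  have h2 : 2 * Z * n * E * (A * μ') ≤ 2 * Z * n * E * (A * μ) := by
    apply mul_le_mul_of_nonneg_left _ (by positivity)
    exact mul_le_mul_of_nonneg_left hμ hA0
  have e1 : (E - 1 + x * E) * (2 * (μ * (Z * n)))
        - E * β * (d2 / 4 * Z * Ω + 2 * h * (μ * (Z * n)))
      = (E - 1) * (2 * n * Z * μ) + 2 * Z * n * E * (A * μ) - E * β * (d2 / 4 * Z * Ω) := by
    rw [hx]; ring
  have e2 : E * β * (d2 / 4 * Z * (n * (4 * κ))) = 2 * Z * n * E * (A * μ') := by
    rw [hA]; ring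
  rw [e1] at ht
  have h3 : (E - 1) * (2 * n * Z * μ) ≤ (E - 1) * ((E - 1) * N_l) := by
    have : (E - 1) * ((E - 1) * N_l) = (E - 1) ^ 2 * N_l := by ring
    rw [this]
    linarith
  exact le_of_mul_le_mul_left h3 hEm

/-- The exponent of the `l`-th mode. -/
noncomputable def xMode (β h d2 μ' : ℝ) {N : ℕ} (l : Fin 3 → Fin (sideL N)) : ℝ :=
  β * h + β * d2 * kappa l / (2 * μ')

lemma xMode_pos (β h d2 μ' : ℝ) (hβ : 0 < β) (hh : 0 < h) (hd2 : 0 ≤ d2) (hμ' : 0 < μ') {N : ℕ}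
    (l : Fin 3 → Fin (sideL N)) : 0 < xMode β h d2 μ' l := by
  unfold xMode
  have h1 := kappa_nonneg l
  have : 0 ≤ β * d2 * kappa l / (2 * μ') := by positivity
  have h2 : 0 < β * h := mul_pos hβ hh
  linarith

lemma mbar_eq (d : ℕ) (β h : ℝ) (N : ℕ) :
    gs (boxX d N β h) (magOp (Site N) d)
      = magDensity d β h N * (gs (boxX d N β h) 1 * (sideL N : ℝ) ^ 3) := by
  unfold magDensity
  have hZ := Z_pos d N β h
  have hL : (0 : ℝ) < (sideL N : ℝ) := by positivity
  field_simp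

/-- The bound for one mode. -/
lemma mode_bound (d : ℕ) (β h : ℝ) (hβ : 0 < β) (hh : 0 < h) (N : ℕ)
    (μ' : ℝ) (hμ' : 0 < μ') (hμ : μ' ≤ magDensity d β h N) (R : ℕ) (l : Fin 3 → Fin (sideL N)) :
    2 * (sideL N : ℝ) ^ 3 * gs (boxX d N β h) 1 * μ'
        * ∑ r ∈ Finset.range R, Real.exp (-(((r : ℝ) + 1) * xMode β h ((d : ℝ) ^ 2) μ' l))
      ≤ gs (boxX d N β h) ((modeA d (wave l))ᴴ * modeA d (wave l)) := by
  have ht := tangent_mode (d := d) (adjBox N) (adjBox_ne N) β h hβ.le (wave l)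
    (wave_unimodular l) (xMode β h ((d : ℝ) ^ 2) μ' l)
  rw [← boxX, mbar_eq] at ht
  have hxpos := xMode_pos β h ((d : ℝ) ^ 2) μ' hβ hh (by positivity) hμ' l
  have hE1 : 1 < Real.exp (xMode β h ((d : ℝ) ^ 2) μ' l) := Real.one_lt_exp_iff.mpr hxpos
  have hEm : 0 < Real.exp (xMode β h ((d : ℝ) ^ 2) μ' l) - 1 := by linarith
  have hZ := Z_pos d N β h
  have hL : (0 : ℝ) < (sideL N : ℝ) := by positivity
  have hmain := fv_alg _ (xMode β h ((d : ℝ) ^ 2) μ' l) β h ((d : ℝ) ^ 2) (kappa l) μ'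
    (magDensity d β h N) ((sideL N : ℝ) ^ 3) (gs (boxX d N β h) 1) _ _
    (β * (d : ℝ) ^ 2 * kappa l / (2 * μ')) hE1 rfl
    (by field_simp) hβ (by positivity) (kappa_nonneg l) hμ' hμ (by positivity) hZ
    (wave_omega_le l) ht
  have hgeom := geom_exp_le (xMode β h ((d : ℝ) ^ 2) μ' l) hxpos R
  have hnn : 0 ≤ 2 * (sideL N : ℝ) ^ 3 * gs (boxX d N β h) 1 * μ' := by positivity
  refine le_trans (mul_le_mul_of_nonneg_left hgeom hnn) ?_
  rw [mul_one_div, div_le_iff₀ hEm]
  have : 2 * (sideL N : ℝ) ^ 3 * gs (boxX d N β h) 1 * μ'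
      ≤ 2 * (sideL N : ℝ) ^ 3 * gs (boxX d N β h) 1 * magDensity d β h N :=
    mul_le_mul_of_nonneg_left hμ (by positivity)
  linarith

/-- The sum over modes, from above. -/
lemma modes_sum_le (d : ℕ) (β h : ℝ) (N : ℕ) :
    ∑ l : Fin 3 → Fin (sideL N), gs (boxX d N β h) ((modeA d (wave l))ᴴ * modeA d (wave l))
      ≤ (sideL N : ℝ) ^ 3 * ((d : ℝ) * ((d : ℝ) / 2 * (sideL N : ℝ) ^ 3 * gs (boxX d N β h) 1
          - gs (boxX d N β h) (magOp (Site N) d))) := by
  rw [← gs_sum, sum_modes (fun l => wave l) ((sideL N : ℂ) ^ 3) wave_parseval]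
  have hc : ((sideL N : ℂ) ^ 3) = ((((sideL N : ℝ) ^ 3 : ℝ)) : ℂ) := by
    push_cast; rfl
  rw [hc, gs_smul_real, gs_sum]
  have hq := gs_sum_QP_le (d := d) (boxX_hermitian d N β h)
  rw [card_site] at hq
  have hq2 : ((sideL N ^ 3 : ℕ) : ℝ) = (sideL N : ℝ) ^ 3 := by push_cast; rfl
  rw [hq2] at hq
  exact mul_le_mul_of_nonneg_left hq (by positivity)

/-- The sum over modes of the exponentials, in closed form. -/
lemma modes_exp_sum (β h d2 μ' : ℝ) (hμ' : 0 < μ') (N r : ℕ) :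
    ∑ l : Fin 3 → Fin (sideL N), Real.exp (-(((r : ℝ) + 1) * xMode β h d2 μ' l))
      = (sideL N : ℝ) ^ 3 * (Real.exp (-(((r : ℝ) + 1) * (β * h)))
        * (Tsum (sideL N) (((r : ℝ) + 1) * (β * d2 / (2 * μ')))) ^ 3) := by
  have hL : (0 : ℝ) < (sideL N : ℝ) := by positivity
  have hexp : ∀ (l : Fin 3 → Fin (sideL N)), Real.exp (-(((r : ℝ) + 1) * xMode β h d2 μ' l))
      = Real.exp (-(((r : ℝ) + 1) * (β * h)))
        * ∏ j, Real.exp (-(((r : ℝ) + 1) * (β * d2 / (2 * μ')))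
            * (1 - Real.cos (ang (sideL N) (l j)))) := by
    intro l
    rw [← Real.exp_sum, ← Real.exp_add]
    congr 1
    rw [← Finset.mul_sum]
    unfold xMode kappa
    field_simp
    ring
  simp only [hexp]
  rw [← Finset.mul_sum]
  have hprod := Finset.prod_univ_sum (fun _ : Fin 3 => (Finset.univ : Finset (Fin (sideL N))))
    (fun _ m => Real.exp (-(((r : ℝ) + 1) * (β * d2 / (2 * μ')))
          * (1 - Real.cos (ang (sideL N) (m : ℕ)))))
  rw [Fintype.piFinset_univ] at hprod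
  rw [← hprod]
  simp only [Finset.prod_const, Finset.card_univ, Fintype.card_fin]
  unfold Tsum
  rw [mul_pow]
  field_simp

/-- **The finite-volume inequality.** -/
theorem fv_bound (d : ℕ) (hd : 0 < d) (β h : ℝ) (hβ : 0 < β) (hh : 0 < h) (N : ℕ)
    (μ' : ℝ) (hμ' : 0 < μ') (hμ : μ' ≤ magDensity d β h N) (R : ℕ) :
    (2 * μ' / (d : ℝ)) * ∑ r ∈ Finset.range R, Real.exp (-(((r : ℝ) + 1) * (β * h)))
        * (Tsum (sideL N) (((r : ℝ) + 1) * (β * (d : ℝ) ^ 2 / (2 * μ')))) ^ 3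
      ≤ (d : ℝ) / 2 - magDensity d β h N := by
  have hZ := Z_pos d N β h
  have hL : (0 : ℝ) < (sideL N : ℝ) := by positivity
  have hdpos : (0 : ℝ) < d := by exact_mod_cast hd
  have hlower : 2 * (sideL N : ℝ) ^ 3 * gs (boxX d N β h) 1 * μ' * ((sideL N : ℝ) ^ 3 *
        ∑ r ∈ Finset.range R, Real.exp (-(((r : ℝ) + 1) * (β * h)))
        * (Tsum (sideL N) (((r : ℝ) + 1) * (β * (d : ℝ) ^ 2 / (2 * μ')))) ^ 3)
      ≤ ∑ l : Fin 3 → Fin (sideL N), gs (boxX d N β h) ((modeA d (wave l))ᴴ * modeA d (wave l)) := by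
    refine le_trans (le_of_eq ?_)
      (Finset.sum_le_sum fun l _ => mode_bound d β h hβ hh N μ' hμ' hμ R l)
    rw [← Finset.mul_sum]
    congr 1
    rw [Finset.sum_comm, Finset.mul_sum]
    refine Finset.sum_congr rfl fun r _ => ?_
    rw [modes_exp_sum β h _ μ' hμ']
  have hfinal := le_trans hlower (modes_sum_le d β h N)
  rw [mbar_eq] at hfinal
  set S := ∑ r ∈ Finset.range R, Real.exp (-(((r : ℝ) + 1) * (β * h)))
        * (Tsum (sideL N) (((r : ℝ) + 1) * (β * (d : ℝ) ^ 2 / (2 * μ')))) ^ 3 with hS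
  set Z := gs (boxX d N β h) 1 with hZdef
  set n : ℝ := (sideL N : ℝ) ^ 3 with hn
  have hnpos : 0 < n := by positivity
  set μ := magDensity d β h N with hμdef
  have hfactor : 2 * n * Z * μ' * (n * S) = (n * n * Z) * (2 * μ' * S) := by ring
  have hfactor2 : n * ((d : ℝ) * ((d : ℝ) / 2 * n * Z - μ * (Z * n)))
      = (n * n * Z) * ((d : ℝ) * ((d : ℝ) / 2 - μ)) := by ring
  rw [hfactor, hfactor2] at hfinal
  have hdiv := le_of_mul_le_mul_left hfinal (by positivity)
  rw [div_mul_eq_mul_div, div_le_iff₀ hdpos]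
  linarith

end Vale.Agent.Lib.P361
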