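import Vale.Agent.Lib.P361.Spin

open scoped Matrix
open Matrix

namespace Vale.Agent.Lib.P361

open Gibbs

variable {V : Type} [Fintype V] [DecidableEq V] {d : ℕ}

lemma commute_PP {x z : V} (h : x ≠ z) : Commute (opP d x) (opP d z) := siteOp_comm h _ _
lemma commute_PQ {x z : V} (h : x ≠ z) : Commute (opP d x) (opQ d z) := siteOp_comm h _ _
lemma commute_PZ {x z : V} (h : x ≠ z) : Commute (opP d x) (opZ d z) := siteOp_comm h _ _
lemma commute_QP {x z : V} (h : x ≠ z) : Commute (opQ d x) (opP d z) := siteOp_comm h _ _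
lemma commute_QQ {x z : V} (h : x ≠ z) : Commute (opQ d x) (opQ d z) := siteOp_comm h _ _
lemma commute_QZ {x z : V} (h : x ≠ z) : Commute (opQ d x) (opZ d z) := siteOp_comm h _ _
lemma commute_ZP {x z : V} (h : x ≠ z) : Commute (opZ d x) (opP d z) := siteOp_comm h _ _
lemma commute_ZQ {x z : V} (h : x ≠ z) : Commute (opZ d x) (opQ d z) := siteOp_comm h _ _
lemma commute_ZZ {x z : V} (h : x ≠ z) : Commute (opZ d x) (opZ d z) := siteOp_comm h _ _

/-- The operator `W_xy = S³_x S⁻_y - S⁻_x S³_y`. -/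
noncomputable def opW (d : ℕ) (x y : V) : Matrix (V → Fin (d + 1)) (V → Fin (d + 1)) ℂ :=
  opZ d x * opQ d y - opQ d x * opZ d y

lemma comm_B2_Qx {x y : V} (hxy : x ≠ y) :
    opB2 d x y * opQ d x - opQ d x * opB2 d x y = opW d x y + opW d x y :=
  bond_comm_qx (opP d x) (opQ d x) (opZ d x) (opP d y) (opQ d y) (opZ d y)
    (comm_ZQ d x) (comm_PQ d x) (commute_ZQ hxy.symm).eq (commute_QQ hxy.symm).eq
    (commute_PQ hxy.symm).eq

lemma comm_B2_Qy {x y : V} (hxy : x ≠ y) :
    opB2 d x y * opQ d y - opQ d y * opB2 d x y = -(opW d x y + opW d x y) :=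
  bond_comm_qy (opP d x) (opQ d x) (opZ d x) (opP d y) (opQ d y) (opZ d y)
    (comm_ZQ d y) (comm_PQ d y) (commute_QZ hxy.symm).eq (commute_QP hxy.symm).eq
    (commute_QQ hxy.symm).eq

lemma comm_B2_Q_other {x y z : V} (hx : z ≠ x) (hy : z ≠ y) :
    opB2 d x y * opQ d z - opQ d z * opB2 d x y = 0 := by
  have h : Commute (opB2 d x y) (opQ d z) := by
    unfold opB2
    refine Commute.add_left (Commute.add_left (Commute.add_left ?_ ?_) ?_) ?_
    · exact (commute_ZQ hx.symm).mul_left (commute_ZQ hy.symm)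
    · exact (commute_ZQ hx.symm).mul_left (commute_ZQ hy.symm)
    · exact (commute_PQ hx.symm).mul_left (commute_QQ hy.symm)
    · exact (commute_QQ hx.symm).mul_left (commute_PQ hy.symm)
  rw [h.eq, sub_self]

lemma comm_P_Wx {x y : V} (hxy : x ≠ y) :
    opP d x * opW d x y - opW d x y * opP d x
      = -(opP d x * opQ d y) - (opZ d x * opZ d y + opZ d x * opZ d y) :=
  comm_px_W (opP d x) (opQ d x) (opZ d x) (opQ d y) (opZ d y)
    (comm_ZP d x) (comm_PQ d x) (commute_PQ hxy).eq (commute_PZ hxy).eq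

lemma comm_P_Wy {x y : V} (hxy : x ≠ y) :
    opP d y * opW d x y - opW d x y * opP d y
      = (opZ d x * opZ d y + opZ d x * opZ d y) + opQ d x * opP d y :=
  comm_py_W (opQ d x) (opZ d x) (opP d y) (opQ d y) (opZ d y)
    (comm_ZP d y) (comm_PQ d y) (commute_PZ hxy.symm).eq (commute_PQ hxy.symm).eq

lemma comm_P_W_other {x y z : V} (hx : z ≠ x) (hy : z ≠ y) :
    opP d z * opW d x y - opW d x y * opP d z = 0 := by
  have h : Commute (opP d z) (opW d x y) := by
    unfold opW
    refine Commute.sub_right ?_ ?_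
    · exact (commute_PZ hx).mul_right (commute_PQ hy)
    · exact (commute_PQ hx).mul_right (commute_PZ hy)
  rw [h.eq, sub_self]

/-- The mode operator `A = ∑_z a(z) S⁺_z`. -/
noncomputable def modeA (d : ℕ) (a : V → ℂ) : Matrix (V → Fin (d + 1)) (V → Fin (d + 1)) ℂ :=
  ∑ z, a z • opP d z

lemma modeA_conjTranspose (a : V → ℂ) :
    (modeA d a)ᴴ = ∑ z, (starRingEnd ℂ (a z)) • opQ d z := by
  unfold modeA
  rw [Matrix.conjTranspose_sum]
  refine Finset.sum_congr rfl fun z _ => ?_
  rw [Matrix.conjTranspose_smul, opP_conjTranspose]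
  rfl

/-- `[B2_xy, A†]`. -/
lemma comm_B2_modeAdj (a : V → ℂ) {x y : V} (hxy : x ≠ y) :
    opB2 d x y * (modeA d a)ᴴ - (modeA d a)ᴴ * opB2 d x y
      = (starRingEnd ℂ (a x) - starRingEnd ℂ (a y)) • (opW d x y + opW d x y) := by
  rw [modeA_conjTranspose, Finset.mul_sum, Finset.sum_mul, ← Finset.sum_sub_distrib]
  have hterm : ∀ z, opB2 d x y * ((starRingEnd ℂ (a z)) • opQ d z)
      - ((starRingEnd ℂ (a z)) • opQ d z) * opB2 d x y
      = (starRingEnd ℂ (a z)) • (opB2 d x y * opQ d z - opQ d z * opB2 d x y) := by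
    intro z
    rw [mul_smul_comm, smul_mul_assoc, smul_sub]
  simp only [hterm]
  rw [Finset.sum_eq_add x y hxy]
  · rw [comm_B2_Qx hxy, comm_B2_Qy hxy, smul_neg, sub_smul, sub_eq_add_neg]
  · intro z _ hz
    rw [comm_B2_Q_other hz.1 hz.2, smul_zero]
  · intro h; exact absurd (Finset.mem_univ _) h
  · intro h; exact absurd (Finset.mem_univ _) h

/-- `[A, W_xy]`. -/
lemma comm_modeA_W (a : V → ℂ) {x y : V} (hxy : x ≠ y) :
    modeA d a * opW d x y - opW d x y * modeA d a
      = a x • (-(opP d x * opQ d y) - (opZ d x * opZ d y + opZ d x * opZ d y))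
        + a y • ((opZ d x * opZ d y + opZ d x * opZ d y) + opQ d x * opP d y) := by
  unfold modeA
  rw [Finset.sum_mul, Finset.mul_sum, ← Finset.sum_sub_distrib]
  have hterm : ∀ z, (a z • opP d z) * opW d x y - opW d x y * (a z • opP d z)
      = a z • (opP d z * opW d x y - opW d x y * opP d z) := by
    intro z
    rw [mul_smul_comm, smul_mul_assoc, smul_sub]
  simp only [hterm]
  rw [Finset.sum_eq_add x y hxy]
  · rw [comm_P_Wx hxy, comm_P_Wy hxy]
  · intro z _ hz
    rw [comm_P_W_other hz.1 hz.2, smul_zero]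
  · intro h; exact absurd (Finset.mem_univ _) h
  · intro h; exact absurd (Finset.mem_univ _) h

/-- The double commutator `[A, [O, A†]]`. -/
noncomputable def dcomm {ι : Type} [Fintype ι] [DecidableEq ι] (A O : Matrix ι ι ℂ) : Matrix ι ι ℂ :=
  A * (O * Aᴴ - Aᴴ * O) - (O * Aᴴ - Aᴴ * O) * A

section dcomm_linear

variable {ι : Type} [Fintype ι] [DecidableEq ι]

lemma dcomm_add (A O O' : Matrix ι ι ℂ) : dcomm A (O + O') = dcomm A O + dcomm A O' := by
  unfold dcomm; noncomm_ring

lemma dcomm_sub (A O O' : Matrix ι ι ℂ) : dcomm A (O - O') = dcomm A O - dcomm A O' := by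
  unfold dcomm; noncomm_ring

lemma dcomm_neg (A O : Matrix ι ι ℂ) : dcomm A (-O) = - dcomm A O := by
  unfold dcomm; noncomm_ring

lemma dcomm_zero (A : Matrix ι ι ℂ) : dcomm A 0 = 0 := by
  unfold dcomm; noncomm_ring

lemma dcomm_smul (A O : Matrix ι ι ℂ) (c : ℂ) : dcomm A (c • O) = c • dcomm A O := by
  unfold dcomm
  simp only [smul_mul_assoc, mul_smul_comm, smul_sub, mul_sub, sub_mul]

lemma dcomm_sum {κ : Type} (A : Matrix ι ι ℂ) (s : Finset κ) (f : κ → Matrix ι ι ℂ) :
    dcomm A (∑ k ∈ s, f k) = ∑ k ∈ s, dcomm A (f k) := by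
  classical
  induction s using Finset.induction_on with
  | empty => simp [dcomm_zero]
  | insert a s ha ih => rw [Finset.sum_insert ha, Finset.sum_insert ha, dcomm_add, ih]

end dcomm_linear

/-- The double commutator with a bond. -/
lemma dcomm_B2 (a : V → ℂ) {x y : V} (hxy : x ≠ y) :
    dcomm (modeA d a) (opB2 d x y)
      = ((2 : ℂ) * (starRingEnd ℂ (a x) - starRingEnd ℂ (a y))) •
        (a x • (-(opP d x * opQ d y) - (opZ d x * opZ d y + opZ d x * opZ d y))
        + a y • ((opZ d x * opZ d y + opZ d x * opZ d y) + opQ d x * opP d y)) := by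
  unfold dcomm
  rw [comm_B2_modeAdj a hxy]
  simp only [mul_smul_comm, smul_mul_assoc]
  rw [← smul_sub]
  rw [mul_add, add_mul]
  have := comm_modeA_W (d := d) a hxy
  have e : modeA d a * opW d x y + modeA d a * opW d x y - (opW d x y * modeA d a + opW d x y * modeA d a)
      = (modeA d a * opW d x y - opW d x y * modeA d a)
        + (modeA d a * opW d x y - opW d x y * modeA d a) := by noncomm_ring
  rw [e, this]
  rw [mul_comm (2 : ℂ), mul_smul, two_smul]

/-- `[S³_w, S⁻_z]`-type commutator for the total magnetization. -/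
lemma comm_mag_modeAdj (a : V → ℂ) :
    (∑ w, opZ d w) * (modeA d a)ᴴ - (modeA d a)ᴴ * (∑ w, opZ d w) = -(modeA d a)ᴴ := by
  rw [modeA_conjTranspose, Finset.mul_sum, Finset.sum_mul, ← Finset.sum_sub_distrib,
    ← Finset.sum_neg_distrib]
  refine Finset.sum_congr rfl fun z _ => ?_
  rw [mul_smul_comm, smul_mul_assoc, ← smul_sub, ← smul_neg]
  congr 1
  rw [Finset.sum_mul, Finset.mul_sum, ← Finset.sum_sub_distrib, Finset.sum_eq_single z]
  · exact comm_ZQ d z
  · intro w _ hw
    rw [(commute_ZQ hw).eq, sub_self]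
  · intro h; exact absurd (Finset.mem_univ _) h

/-- `[A, A†]` for unimodular coefficients. -/
lemma comm_modeA_modeAdj (a : V → ℂ) (ha : ∀ z, a z * starRingEnd ℂ (a z) = 1) :
    modeA d a * (modeA d a)ᴴ - (modeA d a)ᴴ * modeA d a
      = (∑ w, opZ d w) + (∑ w, opZ d w) := by
  rw [modeA_conjTranspose]
  unfold modeA
  simp only [Finset.mul_sum, Finset.sum_mul]
  rw [← Finset.sum_add_distrib, Finset.sum_comm, ← Finset.sum_sub_distrib]
  refine Finset.sum_congr rfl fun z _ => ?_
  rw [← Finset.sum_sub_distrib, Finset.sum_eq_single z]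
  · rw [smul_mul_smul_comm, smul_mul_smul_comm, mul_comm (starRingEnd ℂ (a z)) (a z), ← smul_sub,
      comm_PQ, ha z, one_smul]
  · intro w _ hw
    rw [smul_mul_smul_comm, smul_mul_smul_comm, mul_comm (starRingEnd ℂ (a w)) (a z), ← smul_sub,
      (commute_PQ (Ne.symm hw)).eq, sub_self, smul_zero]
  · intro h; exact absurd (Finset.mem_univ _) h

end Vale.Agent.Lib.P361
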