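import Vale.Agent.Lib.P361.Lattice

open scoped Matrix
open Matrix Filter Topology

set_option linter.unusedSectionVars false

namespace Vale.Agent.Lib.P361

open Gibbs

/-- The difference of the exponents at two fields. -/
lemma boxX_sub (d N : ℕ) (β h h' : ℝ) :
    boxX d N β h' - boxX d N β h = ((β * (h' - h) : ℝ) : ℂ) • magOp (Site N) d := by
  unfold boxX gibbsX
  push_cast
  module

/-- The supporting line of the finite-volume pressure. -/
theorem pressure_support (d N : ℕ) (β h h' : ℝ) (hβ : 0 < β) :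
    finitePressure d β h N + (h' - h) * magDensity d β h N ≤ finitePressure d β h' N := by
  have hPB := log_peierls_bogoliubov (boxX_hermitian d N β h) (boxX_hermitian d N β h')
  rw [boxX_sub, gs_smul_real] at hPB
  rw [finitePressure_eq, finitePressure_eq]
  unfold magDensity
  have hZ := Z_pos d N β h
  have hL : (0 : ℝ) < (sideL N : ℝ) := by positivity
  have hn : 0 < β * (sideL N : ℝ) ^ 3 := by positivity
  rw [← sub_nonneg] at hPB ⊢
  have e : Real.log (gs (boxX d N β h') 1) / (β * (sideL N : ℝ) ^ 3)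
      - (Real.log (gs (boxX d N β h) 1) / (β * (sideL N : ℝ) ^ 3)
        + (h' - h) * (gs (boxX d N β h) (magOp (Site N) d)
            / (gs (boxX d N β h) 1 * (sideL N : ℝ) ^ 3)))
      = (Real.log (gs (boxX d N β h') 1) - (Real.log (gs (boxX d N β h) 1)
          + β * (h' - h) * gs (boxX d N β h) (magOp (Site N) d) / gs (boxX d N β h) 1))
        / (β * (sideL N : ℝ) ^ 3) := by
    field_simp
  rw [e]
  exact div_nonneg hPB hn.le

/-- Sums over the neighbours of the box. -/
lemma adj_count {N : ℕ} (c : ℝ) (hc : 0 ≤ c) :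
    (∑ x : Site N, ∑ y : Site N, if adjBox N x y then c else 0) ≤ 6 * c * (sideL N : ℝ) ^ 3 := by
  have hx : ∀ x : Site N, (∑ y : Site N, if adjBox N x y then c else 0) ≤ 6 * c := by
    intro x
    have := neighbor_sum_le x (fun _ => c) (fun _ => c) (fun _ => hc) (fun _ _ _ _ _ _ => le_rfl)
    refine le_trans this (le_of_eq ?_)
    rw [Fin.sum_univ_three]
    ring
  calc _ ≤ ∑ x : Site N, 6 * c := Finset.sum_le_sum fun x _ => hx x
    _ = _ := by
      rw [Finset.sum_const, Finset.card_univ, card_site, nsmul_eq_mul]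
      push_cast
      ring

lemma abs_field_aux (β h M B : ℝ) (hβ : 0 < β) (h1 : M ≤ B) (h2 : -B ≤ M) :
    β * h * M ≤ β * |h| * B ∧ -(β * |h| * B) ≤ β * h * M := by
  have habs : |h * M| ≤ |h| * B := by
    rw [abs_mul]
    exact mul_le_mul_of_nonneg_left (abs_le.mpr ⟨h2, h1⟩) (abs_nonneg _)
  have h4 := abs_le.mp habs
  constructor
  · calc β * h * M = β * (h * M) := by ring
      _ ≤ β * (|h| * B) := mul_le_mul_of_nonneg_left h4.2 hβ.le
      _ = _ := by ring
  · calc -(β * |h| * B) = β * (-(|h| * B)) := by ring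
      _ ≤ β * (h * M) := mul_le_mul_of_nonneg_left h4.1 hβ.le
      _ = _ := by ring

section bounds

variable {d N : ℕ} {W : Matrix (Site N → Fin (d + 1)) (Site N → Fin (d + 1)) ℂ}

lemma gs_one_nonneg (hW : W.IsHermitian) : 0 ≤ gs W 1 := (gs_one_pos hW).le

lemma gs_hop_le (hW : W.IsHermitian) :
    gs W (hopSum d (adjBox N)) ≤ 3 * (d : ℝ) ^ 2 * (sideL N : ℝ) ^ 3 * gs W 1 := by
  unfold hopSum
  rw [gs_sum]
  have hb : ∀ x y : Site N, gs W (if adjBox N x y then opB2 d x y else 0)
      ≤ if adjBox N x y then (d : ℝ) ^ 2 / 2 * gs W 1 else 0 := by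
    intro x y
    by_cases hxy : adjBox N x y
    · rw [if_pos hxy, if_pos hxy]
      have := gs_nonneg_of_form hW (bondGap_form (d := d) (adjBox_ne N x y hxy))
      unfold bondGap at this
      have h12 : (1 / 2 : ℂ) = ((1 / 2 : ℝ) : ℂ) := by push_cast; rfl
      rw [gs_sub, gs_smul_real, h12, gs_smul_real] at this
      linarith
    · rw [if_neg hxy, if_neg hxy, gs_zero]
  have hc := adj_count (N := N) ((d : ℝ) ^ 2 / 2 * gs W 1) (by
    have := gs_one_nonneg hW
    positivity)
  calc ∑ x : Site N, gs W (∑ y : Site N, if adjBox N x y then opB2 d x y else 0)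
      ≤ ∑ x : Site N, ∑ y : Site N, if adjBox N x y then (d : ℝ) ^ 2 / 2 * gs W 1 else 0 := by
        refine Finset.sum_le_sum fun x _ => ?_
        rw [gs_sum]
        exact Finset.sum_le_sum fun y _ => hb x y
    _ ≤ _ := hc
    _ = _ := by ring

lemma le_gs_hop (hW : W.IsHermitian) :
    -(30 * (d : ℝ) ^ 2 * (sideL N : ℝ) ^ 3 * gs W 1) ≤ gs W (hopSum d (adjBox N)) := by
  unfold hopSum
  rw [gs_sum]
  have hb : ∀ x y : Site N, (if adjBox N x y then 5 * (d : ℝ) ^ 2 * gs W 1 else 0)
      ≥ - gs W (if adjBox N x y then opB2 d x y else 0) := by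
    intro x y
    by_cases hxy : adjBox N x y
    · rw [if_pos hxy, if_pos hxy]
      have := gs_nonneg_of_form hW (bond_lower_form (d := d) (adjBox_ne N x y hxy))
      rw [gs_add, gs_smul_real] at this
      linarith
    · rw [if_neg hxy, if_neg hxy, gs_zero]
      simp
  have hc := adj_count (N := N) (5 * (d : ℝ) ^ 2 * gs W 1) (by
    have := gs_one_nonneg hW
    positivity)
  have h2 : -∑ x : Site N, gs W (∑ y : Site N, if adjBox N x y then opB2 d x y else 0)
      ≤ ∑ x : Site N, ∑ y : Site N, if adjBox N x y then 5 * (d : ℝ) ^ 2 * gs W 1 else 0 := by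
    rw [← Finset.sum_neg_distrib]
    refine Finset.sum_le_sum fun x _ => ?_
    rw [gs_sum, ← Finset.sum_neg_distrib]
    exact Finset.sum_le_sum fun y _ => hb x y
  have h3 := le_trans h2 hc
  have e : 6 * (5 * (d : ℝ) ^ 2 * gs W 1) * (sideL N : ℝ) ^ 3
      = 30 * (d : ℝ) ^ 2 * (sideL N : ℝ) ^ 3 * gs W 1 := by ring
  rw [e] at h3
  linarith

lemma gs_mag_le (hW : W.IsHermitian) :
    gs W (magOp (Site N) d) ≤ (d : ℝ) / 2 * (sideL N : ℝ) ^ 3 * gs W 1 := by
  unfold magOp
  rw [gs_sum]
  have hb : ∀ x : Site N, gs W (opZ d x) ≤ (d : ℝ) / 2 * gs W 1 := by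
    intro x
    have := gs_nonneg_of_form hW (z_upper_form (d := d) x)
    rw [gs_sub, gs_smul_real] at this
    linarith
  calc _ ≤ ∑ x : Site N, (d : ℝ) / 2 * gs W 1 := Finset.sum_le_sum fun x _ => hb x
    _ = _ := by
      rw [Finset.sum_const, Finset.card_univ, card_site, nsmul_eq_mul]
      push_cast
      ring

lemma le_gs_mag (hW : W.IsHermitian) :
    -((d : ℝ) / 2 * (sideL N : ℝ) ^ 3 * gs W 1) ≤ gs W (magOp (Site N) d) := by
  unfold magOp
  rw [gs_sum]
  have hb : ∀ x : Site N, -((d : ℝ) / 2 * gs W 1) ≤ gs W (opZ d x) := by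
    intro x
    have := gs_nonneg_of_form hW (z_lower_form (d := d) x)
    rw [gs_add, gs_smul_real] at this
    linarith
  calc _ = ∑ x : Site N, -((d : ℝ) / 2 * gs W 1) := by
        rw [Finset.sum_const, Finset.card_univ, card_site, nsmul_eq_mul]
        push_cast
        ring
    _ ≤ _ := Finset.sum_le_sum fun x _ => hb x

/-- The value of `gs W (boxX ..)`. -/
lemma gs_boxX (W : Matrix (Site N → Fin (d + 1)) (Site N → Fin (d + 1)) ℂ) (β h : ℝ) :
    gs W (boxX d N β h) = β / 4 * gs W (hopSum d (adjBox N)) + β * h * gs W (magOp (Site N) d) := by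
  have e : boxX d N β h = ((β / 4 : ℝ) : ℂ) • hopSum d (adjBox N)
      + ((β * h : ℝ) : ℂ) • magOp (Site N) d := by
    unfold boxX gibbsX
    push_cast
    module
  rw [e, gs_add, gs_smul_real, gs_smul_real]

lemma gs_abs_field (hW : W.IsHermitian) (β h : ℝ) (hβ : 0 < β) :
    β * h * gs W (magOp (Site N) d) ≤ β * |h| * ((d : ℝ) / 2 * (sideL N : ℝ) ^ 3 * gs W 1)
    ∧ -(β * |h| * ((d : ℝ) / 2 * (sideL N : ℝ) ^ 3 * gs W 1)) ≤ β * h * gs W (magOp (Site N) d) :=
  abs_field_aux β h _ _ hβ (gs_mag_le (d := d) (N := N) hW) (le_gs_mag (d := d) (N := N) hW)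

end bounds

lemma zero_hermitian (d N : ℕ) :
    (0 : Matrix (Site N → Fin (d + 1)) (Site N → Fin (d + 1)) ℂ).IsHermitian :=
  Matrix.isHermitian_zero

lemma log_gs_zero (d N : ℕ) :
    Real.log (gs (0 : Matrix (Site N → Fin (d + 1)) (Site N → Fin (d + 1)) ℂ) 1)
      = (sideL N : ℝ) ^ 3 * Real.log ((d : ℝ) + 1) := by
  have : gs (0 : Matrix (Site N → Fin (d + 1)) (Site N → Fin (d + 1)) ℂ) 1
      = ((d : ℝ) + 1) ^ ((sideL N) ^ 3) := by
    unfold gs
    rw [NormedSpace.exp_zero, mul_one, Matrix.trace_one, Fintype.card_fun, Fintype.card_fin,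
      card_site]
    push_cast
    norm_cast
  rw [this, Real.log_pow]
  push_cast
  rfl

/-- Upper bound for the finite-volume pressure. -/
theorem finitePressure_le (d : ℕ) (β h : ℝ) (hβ : 0 < β) (N : ℕ) :
    finitePressure d β h N
      ≤ Real.log ((d : ℝ) + 1) / β + 3 / 4 * (d : ℝ) ^ 2 + |h| * ((d : ℝ) / 2) := by
  have hPB := log_peierls_bogoliubov (boxX_hermitian d N β h) (zero_hermitian d N)
  rw [zero_sub, gs_neg, gs_boxX, log_gs_zero] at hPB
  have hZ := Z_pos d N β h
  have hL : (0 : ℝ) < (sideL N : ℝ) := by positivity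
  have h1 := gs_hop_le (d := d) (N := N) (boxX_hermitian d N β h)
  have h2 := (gs_abs_field (d := d) (N := N) (boxX_hermitian d N β h) β h hβ).1
  set Z := gs (boxX d N β h) 1 with hZdef
  set n : ℝ := (sideL N : ℝ) ^ 3 with hn
  have hnpos : 0 < n := by positivity
  have hkey : (β / 4 * gs (boxX d N β h) (hopSum d (adjBox N))
        + β * h * gs (boxX d N β h) (magOp (Site N) d)) / Z
      ≤ β * n * (3 / 4 * (d : ℝ) ^ 2 + |h| * ((d : ℝ) / 2)) := by
    rw [div_le_iff₀ hZ]
    have h3 : β / 4 * gs (boxX d N β h) (hopSum d (adjBox N))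
        ≤ β / 4 * (3 * (d : ℝ) ^ 2 * n * Z) :=
      mul_le_mul_of_nonneg_left h1 (by positivity)
    nlinarith [h3, h2]
  have hlog : Real.log Z ≤ n * Real.log ((d : ℝ) + 1)
      + β * n * (3 / 4 * (d : ℝ) ^ 2 + |h| * ((d : ℝ) / 2)) := by
    have : -(β / 4 * gs (boxX d N β h) (hopSum d (adjBox N))
        + β * h * gs (boxX d N β h) (magOp (Site N) d)) / Z
        = -((β / 4 * gs (boxX d N β h) (hopSum d (adjBox N))
        + β * h * gs (boxX d N β h) (magOp (Site N) d)) / Z) := by ring
    rw [this] at hPB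
    linarith
  rw [finitePressure_eq, div_le_iff₀ (by positivity)]
  rw [← hZdef, ← hn]
  refine le_trans hlog (le_of_eq ?_)
  field_simp
  ring

/-- Lower bound for the finite-volume pressure. -/
theorem le_finitePressure (d : ℕ) (β h : ℝ) (hβ : 0 < β) (N : ℕ) :
    -(15 / 2 * (d : ℝ) ^ 2 + |h| * ((d : ℝ) / 2)) ≤ finitePressure d β h N := by
  have hPB := log_peierls_bogoliubov (zero_hermitian d N) (boxX_hermitian d N β h)
  rw [sub_zero, gs_boxX, log_gs_zero] at hPB
  have h0 : (0 : Matrix (Site N → Fin (d + 1)) (Site N → Fin (d + 1)) ℂ).IsHermitian :=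
    zero_hermitian d N
  have hZ0 := gs_one_pos h0
  have hL : (0 : ℝ) < (sideL N : ℝ) := by positivity
  have h1 := le_gs_hop (d := d) (N := N) h0
  have h2 := (gs_abs_field (d := d) (N := N) h0 β h hβ).2
  set Z0 := gs (0 : Matrix (Site N → Fin (d + 1)) (Site N → Fin (d + 1)) ℂ) 1 with hZ0def
  set n : ℝ := (sideL N : ℝ) ^ 3 with hn
  have hnpos : 0 < n := by positivity
  have hkey : -(β * n * (15 / 2 * (d : ℝ) ^ 2 + |h| * ((d : ℝ) / 2)))
      ≤ (β / 4 * gs 0 (hopSum d (adjBox N)) + β * h * gs 0 (magOp (Site N) d)) / Z0 := by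
    rw [le_div_iff₀ hZ0]
    have h3 : β / 4 * (-(30 * (d : ℝ) ^ 2 * n * Z0)) ≤ β / 4 * gs 0 (hopSum d (adjBox N)) :=
      mul_le_mul_of_nonneg_left h1 (by positivity)
    nlinarith [h3, h2]
  have hlogd : 0 ≤ Real.log ((d : ℝ) + 1) := Real.log_nonneg (by
    have : (0 : ℝ) ≤ d := Nat.cast_nonneg _
    linarith)
  have hlog : -(β * n * (15 / 2 * (d : ℝ) ^ 2 + |h| * ((d : ℝ) / 2)))
      ≤ Real.log (gs (boxX d N β h) 1) := by
    have : 0 ≤ n * Real.log ((d : ℝ) + 1) := mul_nonneg hnpos.le hlogd
    linarith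
  rw [finitePressure_eq, le_div_iff₀ (by positivity), ← hn]
  refine le_trans (le_of_eq ?_) hlog
  ring

/-- Boundedness for the upper limits. -/
lemma fp_bddAbove (d : ℕ) (β h : ℝ) (hβ : 0 < β) :
    IsBoundedUnder (· ≤ ·) atTop (fun N => finitePressure d β h N) :=
  isBoundedUnder_of ⟨_, fun N => finitePressure_le d β h hβ N⟩

lemma fp_bddBelow (d : ℕ) (β h : ℝ) (hβ : 0 < β) :
    IsBoundedUnder (· ≥ ·) atTop (fun N => finitePressure d β h N) :=
  isBoundedUnder_of ⟨_, fun N => le_finitePressure d β h hβ N⟩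

lemma fp_cobdd (d : ℕ) (β h : ℝ) (hβ : 0 < β) :
    IsCoboundedUnder (· ≤ ·) atTop (fun N => finitePressure d β h N) :=
  (fp_bddBelow d β h hβ).isCoboundedUnder_le

/-- Convexity of the pressure. -/
theorem pressure_convex (d : ℕ) (β : ℝ) (hβ : 0 < β) :
    ConvexOn ℝ Set.univ (pressure d β) := by
  refine ⟨convex_univ, ?_⟩
  intro a _ b _ s t hs ht hst
  simp only [smul_eq_mul]
  -- finite-volume convexity
  have hfv : ∀ N, finitePressure d β (s * a + t * b) N
      ≤ s * finitePressure d β a N + t * finitePressure d β b N := by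
    intro N
    set c := s * a + t * b with hc
    have h1 := pressure_support d N β c a hβ
    have h2 := pressure_support d N β c b hβ
    have h3 := mul_le_mul_of_nonneg_left h1 hs
    have h4 := mul_le_mul_of_nonneg_left h2 ht
    have e : s * (finitePressure d β c N + (a - c) * magDensity d β c N)
        + t * (finitePressure d β c N + (b - c) * magDensity d β c N)
        = finitePressure d β c N := by
      have : s * (a - c) + t * (b - c) = 0 := by
        rw [hc]
        have : t = 1 - s := by linarith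
        rw [this]; ring
      have e2 : s * (finitePressure d β c N + (a - c) * magDensity d β c N)
          + t * (finitePressure d β c N + (b - c) * magDensity d β c N)
          = (s + t) * finitePressure d β c N + (s * (a - c) + t * (b - c)) * magDensity d β c N := by
        ring
      rw [e2, this, hst]; ring
    linarith
  refine le_of_forall_pos_le_add fun ε hε => ?_
  unfold pressure
  refine limsup_le_of_le (fp_cobdd d β _ hβ) ?_
  have h1 := eventually_lt_of_limsup_lt (lt_add_of_pos_right (limsup (fun N => finitePressure d β a N) atTop) hε) (fp_bddAbove d β a hβ)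
  have h2 := eventually_lt_of_limsup_lt (lt_add_of_pos_right (limsup (fun N => finitePressure d β b N) atTop) hε) (fp_bddAbove d β b hβ)
  filter_upwards [h1, h2] with N hN1 hN2
  refine le_trans (hfv N) ?_
  have h3 := mul_le_mul_of_nonneg_left hN1.le hs
  have h4 := mul_le_mul_of_nonneg_left hN2.le ht
  have : s * (limsup (fun N => finitePressure d β a N) atTop + ε)
      + t * (limsup (fun N => finitePressure d β b N) atTop + ε)
      = s * limsup (fun N => finitePressure d β a N) atTop
        + t * limsup (fun N => finitePressure d β b N) atTop + ε := by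
    have : t = 1 - s := by linarith
    rw [this]; ring
  linarith

theorem pressure_rightDiff (d : ℕ) (β : ℝ) (hβ : 0 < β) :
    DifferentiableWithinAt ℝ (pressure d β) (Set.Ioi 0) 0 :=
  (pressure_convex d β hβ).differentiableWithinAt_Ioi_of_mem_interior (by simp)

theorem magnetization_le_slope (d : ℕ) (β h : ℝ) (hβ : 0 < β) (hh : 0 < h) :
    spontaneousMagnetization d β ≤ (pressure d β h - pressure d β 0) / h := by
  have := (pressure_convex d β hβ).rightDeriv_le_slope (Set.mem_univ 0) (Set.mem_univ h) hh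
    (pressure_rightDiff d β hβ)
  unfold spontaneousMagnetization
  refine le_trans this (le_of_eq ?_)
  rw [slope_def_field]
  simp

/-- Finite-volume magnetizations exceed any number below the spontaneous magnetization, along
a subsequence. -/
theorem frequently_magDensity (d : ℕ) (β h m' : ℝ) (hβ : 0 < β) (hh : 0 < h)
    (hm : m' < spontaneousMagnetization d β) :
    ∃ᶠ N in atTop, m' < magDensity d β h N := by
  have h1 := lt_of_lt_of_le hm (magnetization_le_slope d β h hβ hh)
  rw [lt_div_iff₀ hh] at h1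
  set δ := (pressure d β h - pressure d β 0 - m' * h) / 3 with hδ
  have hδpos : 0 < δ := by rw [hδ]; linarith
  have hf := frequently_lt_of_lt_limsup (fp_cobdd d β h hβ)
    (show pressure d β h - δ < limsup (fun N => finitePressure d β h N) atTop by
      unfold pressure at *; linarith)
  have he := eventually_lt_of_limsup_lt
    (show limsup (fun N => finitePressure d β 0 N) atTop < pressure d β 0 + δ by
      unfold pressure at *; linarith) (fp_bddAbove d β 0 hβ)
  refine (hf.and_eventually he).mono ?_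
  rintro N ⟨hN1, hN2⟩
  have hs := pressure_support d N β h 0 hβ
  have h2 : h * magDensity d β h N ≥ finitePressure d β h N - finitePressure d β 0 N := by
    nlinarith
  have h3 : h * m' < h * magDensity d β h N := by
    nlinarith
  exact lt_of_mul_lt_mul_left h3 hh.le

end Vale.Agent.Lib.P361
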