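import Vale.Agent.Lib.P361.Defs
import Vale.Agent.Lib.P361.Gibbs

open scoped Matrix
open Matrix

namespace Vale.Agent.Lib.P361

variable {V : Type} [Fintype V] [DecidableEq V] {d : ℕ}

theorem siteOp_mulVec (x : V) (T : Matrix (Fin (d + 1)) (Fin (d + 1)) ℂ)
    (f : (V → Fin (d + 1)) → ℂ) (σ : V → Fin (d + 1)) :
    (siteOp x T *ᵥ f) σ = ∑ j, T (σ x) j * f (Function.update σ x j) := by
  classical
  simp only [Matrix.mulVec, dotProduct, siteOp, Matrix.of_apply]
  have h1 : ∀ τ : V → Fin (d + 1), (if ∀ y, y ≠ x → σ y = τ y then T (σ x) (τ x) else 0) * f τ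
      = ∑ j, if τ = Function.update σ x j then T (σ x) j * f τ else 0 := by
    intro τ
    by_cases h : ∀ y, y ≠ x → σ y = τ y
    · rw [if_pos h, Finset.sum_eq_single (τ x)]
      · have : τ = Function.update σ x (τ x) := by
          funext y
          by_cases hy : y = x
          · subst hy; simp
          · rw [Function.update_of_ne hy]; exact (h y hy).symm
        rw [if_pos this]
      · intro j _ hj
        rw [if_neg]
        intro he
        apply hj
        rw [he]; simp
      · simp
    · rw [if_neg h, zero_mul]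
      symm
      refine Finset.sum_eq_zero fun j _ => ?_
      rw [if_neg]
      intro he
      apply h
      intro y hy
      rw [he, Function.update_of_ne hy]
  simp only [h1]
  rw [Finset.sum_comm]
  refine Finset.sum_congr rfl fun j _ => ?_
  simp

theorem matrix_ext_mulVec {ι : Type} [Fintype ι] [DecidableEq ι] {A B : Matrix ι ι ℂ}
    (h : ∀ f, A *ᵥ f = B *ᵥ f) : A = B := by
  ext i j
  have := congrFun (h (Pi.single j 1)) i
  simpa using this

theorem siteOp_mul_same (x : V) (T T' : Matrix (Fin (d + 1)) (Fin (d + 1)) ℂ) :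
    siteOp x T * siteOp x T' = siteOp x (T * T') := by
  apply matrix_ext_mulVec
  intro f
  funext σ
  rw [← Matrix.mulVec_mulVec, siteOp_mulVec, siteOp_mulVec]
  simp only [siteOp_mulVec, Function.update_self, Function.update_idem, Matrix.mul_apply,
    Finset.mul_sum, Finset.sum_mul]
  rw [Finset.sum_comm]
  refine Finset.sum_congr rfl fun i _ => Finset.sum_congr rfl fun j _ => ?_
  ring

theorem siteOp_comm {x y : V} (hxy : x ≠ y) (T T' : Matrix (Fin (d + 1)) (Fin (d + 1)) ℂ) :
    siteOp x T * siteOp y T' = siteOp y T' * siteOp x T := by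
  apply matrix_ext_mulVec
  intro f
  funext σ
  rw [← Matrix.mulVec_mulVec, ← Matrix.mulVec_mulVec, siteOp_mulVec, siteOp_mulVec]
  simp only [siteOp_mulVec, Finset.mul_sum]
  rw [Finset.sum_comm]
  refine Finset.sum_congr rfl fun i _ => Finset.sum_congr rfl fun j _ => ?_
  rw [Function.update_of_ne hxy.symm, Function.update_of_ne hxy, Function.update_comm hxy.symm]
  ring

theorem siteOp_add (x : V) (T T' : Matrix (Fin (d + 1)) (Fin (d + 1)) ℂ) :
    siteOp x (T + T') = siteOp x T + siteOp x T' := by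
  ext σ τ
  simp only [siteOp, Matrix.of_apply, Matrix.add_apply]
  split_ifs <;> simp

theorem siteOp_sub (x : V) (T T' : Matrix (Fin (d + 1)) (Fin (d + 1)) ℂ) :
    siteOp x (T - T') = siteOp x T - siteOp x T' := by
  ext σ τ
  simp only [siteOp, Matrix.of_apply, Matrix.sub_apply]
  split_ifs <;> simp

theorem siteOp_neg (x : V) (T : Matrix (Fin (d + 1)) (Fin (d + 1)) ℂ) :
    siteOp x (-T) = - siteOp x T := by
  ext σ τ
  simp only [siteOp, Matrix.of_apply, Matrix.neg_apply]
  split_ifs <;> simp

theorem siteOp_smul (x : V) (c : ℂ) (T : Matrix (Fin (d + 1)) (Fin (d + 1)) ℂ) :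
    siteOp x (c • T) = c • siteOp x T := by
  ext σ τ
  simp only [siteOp, Matrix.of_apply, Matrix.smul_apply]
  split_ifs <;> simp

theorem siteOp_one (x : V) :
    siteOp x (1 : Matrix (Fin (d + 1)) (Fin (d + 1)) ℂ) = 1 := by
  ext σ τ
  simp only [siteOp, Matrix.of_apply, Matrix.one_apply]
  by_cases h : σ = τ
  · subst h; simp
  · rw [if_neg h]
    split_ifs with h1 h2
    · exfalso; apply h; funext y
      by_cases hy : y = x
      · subst hy; exact h2
      · exact h1 y hy
    · rfl
    · rfl

theorem siteOp_conjTranspose (x : V) (T : Matrix (Fin (d + 1)) (Fin (d + 1)) ℂ) :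
    (siteOp x T)ᴴ = siteOp x Tᴴ := by
  ext σ τ
  simp only [siteOp, Matrix.of_apply, Matrix.conjTranspose_apply]
  by_cases h : ∀ y, y ≠ x → σ y = τ y
  · rw [if_pos h, if_pos (fun y hy => (h y hy).symm)]
  · rw [if_neg h, if_neg (fun h' => h (fun y hy => (h' y hy).symm))]
    simp

theorem siteOp_transpose (x : V) (T : Matrix (Fin (d + 1)) (Fin (d + 1)) ℂ) :
    (siteOp x T)ᵀ = siteOp x Tᵀ := by
  ext σ τ
  simp only [siteOp, Matrix.of_apply, Matrix.transpose_apply]
  by_cases h : ∀ y, y ≠ x → σ y = τ y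
  · rw [if_pos h, if_pos (fun y hy => (h y hy).symm)]
  · rw [if_neg h, if_neg (fun h' => h (fun y hy => (h' y hy).symm))]

theorem siteOp_diagonal (x : V) (w : Fin (d + 1) → ℂ) :
    siteOp x (diagonal w) = diagonal (fun σ : V → Fin (d + 1) => w (σ x)) := by
  ext σ τ
  simp only [siteOp, Matrix.of_apply, Matrix.diagonal_apply]
  by_cases h : σ = τ
  · subst h; simp
  · rw [if_neg h]
    split_ifs with h1 h2
    · exfalso; apply h; funext y
      by_cases hy : y = x
      · subst hy; exact h2
      · exact h1 y hy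
    · rfl
    · rfl

/-! ### Local spin matrices -/

/-- The coefficient `c(j) = √(j (d + 1 - j))`. -/
noncomputable def cf (d : ℕ) (j : ℕ) : ℝ := Real.sqrt ((j : ℝ) * ((d : ℝ) + 1 - (j : ℝ)))

lemma cf_sq {j : ℕ} (hj : j ≤ d + 1) : cf d j * cf d j = (j : ℝ) * ((d : ℝ) + 1 - (j : ℝ)) := by
  unfold cf
  apply Real.mul_self_sqrt
  have : (j : ℝ) ≤ (d : ℝ) + 1 := by exact_mod_cast hj
  exact mul_nonneg (Nat.cast_nonneg _) (by linarith)

lemma cf_nonneg (j : ℕ) : 0 ≤ cf d j := Real.sqrt_nonneg _

lemma spinPlus_apply (i j : Fin (d + 1)) :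
    spinPlus d i j = if (j : ℕ) = (i : ℕ) + 1 then ((cf d j : ℝ) : ℂ) else 0 := rfl

lemma spinMinus_apply (i j : Fin (d + 1)) :
    spinMinus d i j = if (i : ℕ) = (j : ℕ) + 1 then ((cf d i : ℝ) : ℂ) else 0 := by
  simp only [spinMinus, Matrix.conjTranspose_apply, spinPlus_apply]
  split_ifs <;> simp

lemma spinZ_apply (i j : Fin (d + 1)) :
    spinZ d i j = if i = j then ((d : ℂ) / 2 - ((i : ℕ) : ℂ)) else 0 := by
  simp [spinZ, Matrix.diagonal_apply]

lemma spinMinus_eq_transpose : spinMinus d = (spinPlus d)ᵀ := by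
  ext i j
  rw [spinMinus_apply, Matrix.transpose_apply, spinPlus_apply]

lemma plus_mul_minus (a b : Fin (d + 1)) :
    (spinPlus d * spinMinus d) a b =
      if a = b then (((a : ℕ) + 1 : ℂ) * ((d : ℂ) - (a : ℕ))) else 0 := by
  rw [Matrix.mul_apply]
  simp only [spinPlus_apply, spinMinus_apply]
  by_cases hab : a = b
  · subst hab
    rw [if_pos rfl]
    by_cases ha : (a : ℕ) + 1 ≤ d
    · rw [Finset.sum_eq_single (⟨(a : ℕ) + 1, by omega⟩ : Fin (d + 1))]
      · simp only [if_true]
        rw [← Complex.ofReal_mul, cf_sq (by omega)]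
        push_cast
        ring
      · intro j _ hj
        rw [if_neg]
        · simp
        · intro h
          apply hj
          ext
          simpa using h
      · simp
    · have had : (a : ℕ) = d := by omega
      have : ((d : ℂ) - ((a : ℕ) : ℂ)) = 0 := by rw [had]; simp
      rw [this, mul_zero]
      refine Finset.sum_eq_zero fun j _ => ?_
      rw [if_neg]
      · simp
      · intro h; have := j.2; omega
  · rw [if_neg hab]
    refine Finset.sum_eq_zero fun j _ => ?_
    have hne : (a : ℕ) ≠ b := fun h => hab (Fin.ext h)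
    by_cases h1 : (j : ℕ) = a + 1
    · rw [if_pos h1, if_neg (by omega), mul_zero]
    · rw [if_neg h1, zero_mul]

lemma minus_mul_plus (a b : Fin (d + 1)) :
    (spinMinus d * spinPlus d) a b =
      if a = b then ((a : ℕ) * ((d : ℂ) + 1 - (a : ℕ))) else 0 := by
  rw [Matrix.mul_apply]
  simp only [spinPlus_apply, spinMinus_apply]
  by_cases hab : a = b
  · subst hab
    rw [if_pos rfl]
    by_cases ha : 1 ≤ (a : ℕ)
    · rw [Finset.sum_eq_single (⟨(a : ℕ) - 1, by omega⟩ : Fin (d + 1))]
      · have h : (a : ℕ) = ((a : ℕ) - 1) + 1 := by omega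
        simp only [if_pos h]
        rw [← Complex.ofReal_mul, cf_sq (by omega)]
        push_cast
        ring
      · intro j _ hj
        rw [if_neg]
        · simp
        · intro h
          apply hj
          ext
          simp only
          omega
      · simp
    · have had : (a : ℕ) = 0 := by omega
      rw [had]
      simp only [Nat.cast_zero, zero_mul]
      refine Finset.sum_eq_zero fun j _ => ?_
      rw [if_neg]
      · simp
      · omega
  · rw [if_neg hab]
    refine Finset.sum_eq_zero fun j _ => ?_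
    have hne : (a : ℕ) ≠ b := fun h => hab (Fin.ext h)
    by_cases h1 : (a : ℕ) = j + 1
    · rw [if_pos h1, if_neg (by omega), mul_zero]
    · rw [if_neg h1, zero_mul]

lemma comm_plus_minus :
    spinPlus d * spinMinus d - spinMinus d * spinPlus d = spinZ d + spinZ d := by
  ext a b
  rw [Matrix.sub_apply, plus_mul_minus, minus_mul_plus, Matrix.add_apply, spinZ_apply]
  by_cases hab : a = b
  · rw [if_pos hab, if_pos hab, if_pos hab]
    ring
  · rw [if_neg hab, if_neg hab, if_neg hab]
    simp

lemma comm_z_plus :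
    spinZ d * spinPlus d - spinPlus d * spinZ d = spinPlus d := by
  ext a b
  rw [Matrix.sub_apply]
  simp only [spinZ, Matrix.diagonal_mul, Matrix.mul_diagonal, spinPlus_apply]
  by_cases h : (b : ℕ) = a + 1
  · rw [if_pos h]
    rw [h]
    push_cast
    ring
  · rw [if_neg h]
    simp

lemma comm_z_minus :
    spinZ d * spinMinus d - spinMinus d * spinZ d = - spinMinus d := by
  ext a b
  rw [Matrix.sub_apply, Matrix.neg_apply]
  simp only [spinZ, Matrix.diagonal_mul, Matrix.mul_diagonal, spinMinus_apply]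
  by_cases h : (a : ℕ) = b + 1
  · rw [if_pos h]
    rw [h]
    push_cast
    ring
  · rw [if_neg h]
    simp

lemma spinZ_conjTranspose : (spinZ d)ᴴ = spinZ d := by
  ext a b
  simp only [Matrix.conjTranspose_apply, spinZ_apply]
  by_cases h : a = b
  · subst h; simp
  · rw [if_neg h, if_neg (Ne.symm h)]; simp

lemma spinZ_transpose : (spinZ d)ᵀ = spinZ d := by
  ext a b
  simp only [Matrix.transpose_apply, spinZ_apply]
  by_cases h : a = b
  · subst h; simp
  · rw [if_neg h, if_neg (Ne.symm h)]

/-! ### Site-level ladder operators -/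

/-- `S⁺` at the site `x`. -/
noncomputable def opP (d : ℕ) (x : V) : Matrix (V → Fin (d + 1)) (V → Fin (d + 1)) ℂ :=
  siteOp x (spinPlus d)

/-- `S⁻` at the site `x`. -/
noncomputable def opQ (d : ℕ) (x : V) : Matrix (V → Fin (d + 1)) (V → Fin (d + 1)) ℂ :=
  siteOp x (spinMinus d)

/-- `S³` at the site `x`. -/
noncomputable def opZ (d : ℕ) (x : V) : Matrix (V → Fin (d + 1)) (V → Fin (d + 1)) ℂ :=
  siteOp x (spinZ d)

/-- Twice the bond operator: `2 S_x · S_y`. -/
noncomputable def opB2 (d : ℕ) (x y : V) : Matrix (V → Fin (d + 1)) (V → Fin (d + 1)) ℂ :=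
  opZ d x * opZ d y + opZ d x * opZ d y + opP d x * opQ d y + opQ d x * opP d y

lemma bond_eq (d : ℕ) (x y : V) :
    ∑ a : Fin 3, siteOp x (spinOp d a) * siteOp y (spinOp d a) = (1 / 2 : ℂ) • opB2 d x y := by
  rw [Fin.sum_univ_three]
  simp only [spinOp, Matrix.cons_val_zero, Matrix.cons_val_one, Matrix.cons_val_two,
    Matrix.head_cons, Matrix.tail_cons, siteOp_smul, siteOp_add, siteOp_sub, opB2, opP, opQ, opZ]
  simp only [smul_mul_assoc, mul_smul_comm, smul_smul, add_mul, mul_add, sub_mul, mul_sub,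
    smul_add, smul_sub]
  have h : (1 / (2 * Complex.I)) * (1 / (2 * Complex.I)) = (-1 / 4 : ℂ) := by
    field_simp
    rw [Complex.I_sq]
    norm_num
  rw [show (1 / (2 * Complex.I)) * (1 / (2 * Complex.I)) = (-1 / 4 : ℂ) from h]
  module

lemma comm_ZP (d : ℕ) (x : V) : opZ d x * opP d x - opP d x * opZ d x = opP d x := by
  simp only [opZ, opP, siteOp_mul_same, ← siteOp_sub, comm_z_plus]

lemma comm_ZQ (d : ℕ) (x : V) : opZ d x * opQ d x - opQ d x * opZ d x = - opQ d x := by
  simp only [opZ, opQ, siteOp_mul_same, ← siteOp_sub, comm_z_minus, siteOp_neg]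

lemma comm_PQ (d : ℕ) (x : V) : opP d x * opQ d x - opQ d x * opP d x = opZ d x + opZ d x := by
  simp only [opZ, opP, opQ, siteOp_mul_same, ← siteOp_sub, comm_plus_minus, siteOp_add]

lemma opP_conjTranspose (d : ℕ) (x : V) : (opP d x)ᴴ = opQ d x := by
  simp only [opP, opQ, siteOp_conjTranspose, spinMinus]

lemma opQ_conjTranspose (d : ℕ) (x : V) : (opQ d x)ᴴ = opP d x := by
  simp only [opP, opQ, siteOp_conjTranspose, spinMinus, Matrix.conjTranspose_conjTranspose]

lemma opZ_conjTranspose (d : ℕ) (x : V) : (opZ d x)ᴴ = opZ d x := by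
  simp only [opZ, siteOp_conjTranspose, spinZ_conjTranspose]

lemma opP_transpose (d : ℕ) (x : V) : (opP d x)ᵀ = opQ d x := by
  simp only [opP, opQ, siteOp_transpose, spinMinus_eq_transpose]

lemma opQ_transpose (d : ℕ) (x : V) : (opQ d x)ᵀ = opP d x := by
  simp only [opP, opQ, siteOp_transpose, spinMinus_eq_transpose, Matrix.transpose_transpose]

lemma opZ_transpose (d : ℕ) (x : V) : (opZ d x)ᵀ = opZ d x := by
  simp only [opZ, siteOp_transpose, spinZ_transpose]

/-! ### Abstract commutator identities in a ring -/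

section ring

variable {R : Type*} [Ring R] (px qx zx py qy zy : R)

lemma bond_comm_qx (hzqx : zx * qx - qx * zx = -qx) (hpqx : px * qx - qx * px = zx + zx)
    (c1 : zy * qx = qx * zy) (c2 : qy * qx = qx * qy) (c3 : py * qx = qx * py) :
    (zx * zy + zx * zy + px * qy + qx * py) * qx - qx * (zx * zy + zx * zy + px * qy + qx * py)
      = (zx * qy - qx * zy) + (zx * qy - qx * zy) := by
  linear_combination (norm := noncomm_ring)
    hzqx * zy + hzqx * zy + (hpqx * qy) + zx * c1 + zx * c1 + px * c2 + qx * c3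

lemma bond_comm_qy (hzqy : zy * qy - qy * zy = -qy) (hpqy : py * qy - qy * py = zy + zy)
    (c1 : qy * zx = zx * qy) (c2 : qy * px = px * qy) (c3 : qy * qx = qx * qy) :
    (zx * zy + zx * zy + px * qy + qx * py) * qy - qy * (zx * zy + zx * zy + px * qy + qx * py)
      = -((zx * qy - qx * zy) + (zx * qy - qx * zy)) := by
  linear_combination (norm := noncomm_ring)
    zx * hzqy + zx * hzqy + qx * hpqy - c1 * zy - c1 * zy - c2 * qy - c3 * py

lemma comm_px_W (hpzx : zx * px - px * zx = px) (hpqx : px * qx - qx * px = zx + zx)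
    (c1 : px * qy = qy * px) (c2 : px * zy = zy * px) :
    px * (zx * qy - qx * zy) - (zx * qy - qx * zy) * px
      = -(px * qy) - (zx * zy + zx * zy) := by
  linear_combination (norm := noncomm_ring)
    -(hpzx * qy) + zx * c1 - hpqx * zy - qx * c2

lemma comm_py_W (hzpy : zy * py - py * zy = py) (hpqy : py * qy - qy * py = zy + zy)
    (c1 : py * zx = zx * py) (c2 : py * qx = qx * py) :
    py * (zx * qy - qx * zy) - (zx * qy - qx * zy) * py
      = (zx * zy + zx * zy) + qx * py := by
  linear_combination (norm := noncomm_ring)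
    c1 * qy + zx * hpqy - c2 * zy + qx * hzpy

end ring

end Vale.Agent.Lib.P361
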